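import Vale.Agent.P280Z.Pr.Grr4

/-!
# P280X, block G7: a relation for the fourth relative Todd class over a base of dimension four
-/

open scoped Manifold ContDiff Topology Matrix
open Set Filter
open Vale.Agent.P272.K Vale.Agent.P285.H281.FD Vale.Agent.P281Z Vale.Agent.P280Z
open Vale.Agent.P277.HD (pull)
open Vale.Agent.P277 (Bd.inv)
open Vale.Agent.P280Z.Rh Vale.Agent.P280Z.Ma Vale.Agent.P280Z.Pr
open Vale.Agent.P280Z.Gm (Fa)
open Vale.Agent.P280Z.Hr (tdx coeff_td)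

noncomputable section

namespace Vale.Agent.P280X.G7

namespace GrrH

section alg
variable {B : Type} [CommRing B] [Algebra ℝ B]

theorem tay7 {x : B} (h : x ^ 5 = 0) (s : ℝ) (z a b c e : B) :
    tdx (s • x + z) a b c e 7 = tdx z a b c e 7 + s • (x * tdx z a b c e 6) +
      (s ^ 2 / 2) • (x ^ 2 * tdx z a b c e 5) + (s ^ 3 / 6) • (x ^ 3 * tdx z a b c e 4) +
      (s ^ 4 / 24) • (x ^ 4 * tdx z a b c e 3) := by
  have k : tdx (s • x + z) a b c e 7 = tdx z a b c e 7 + s • (x * tdx z a b c e 6) +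
      (s ^ 2 / 2) • (x ^ 2 * tdx z a b c e 5) + (s ^ 3 / 6) • (x ^ 3 * tdx z a b c e 4) +
      (s ^ 4 / 24) • (x ^ 4 * tdx z a b c e 3) +
      x ^ 5 * ((s ^ 5 / 120) • tdx z a b c e 2 + (s ^ 6 / 720) • (x * z) +
        (s ^ 7 / 5040) • x ^ 2) := by
    simp only [tdx]
    algebra
  rw [k, h, zero_mul, add_zero]

theorem tay8 {x : B} (h : x ^ 6 = 0) (s : ℝ) (z a b c e : B) :
    tdx (s • x + z) a b c e 8 = tdx z a b c e 8 + s • (x * tdx z a b c e 7) +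
      (s ^ 2 / 2) • (x ^ 2 * tdx z a b c e 6) + (s ^ 3 / 6) • (x ^ 3 * tdx z a b c e 5) +
      (s ^ 4 / 24) • (x ^ 4 * tdx z a b c e 4) + (s ^ 5 / 120) • (x ^ 5 * tdx z a b c e 3) := by
  have k : tdx (s • x + z) a b c e 8 = tdx z a b c e 8 + s • (x * tdx z a b c e 7) +
      (s ^ 2 / 2) • (x ^ 2 * tdx z a b c e 6) + (s ^ 3 / 6) • (x ^ 3 * tdx z a b c e 5) +
      (s ^ 4 / 24) • (x ^ 4 * tdx z a b c e 4) + (s ^ 5 / 120) • (x ^ 5 * tdx z a b c e 3) +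
      x ^ 6 * ((s ^ 6 / 720) • tdx z a b c e 2 + (s ^ 7 / 5040) • (x * z) +
        (s ^ 8 / 40320) • x ^ 2) := by
    simp only [tdx]
    algebra
  rw [k, h, zero_mul, add_zero]

theorem four {w q r : B} (h : w * q = 0) (h' : w * r = 0) (t : ℕ → B) (c e : B) :
    w * tdx ((1 / 2 : ℝ) • t 1) (-(1 / 24 : ℝ) • (t 2 + q)) ((1 / 2880 : ℝ) • (t 4 + r)) c e 4 =
      (1 / 5760 : ℝ) • (td4 t * w) := by
  have k : w * tdx ((1 / 2 : ℝ) • t 1) (-(1 / 24 : ℝ) • (t 2 + q))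
      ((1 / 2880 : ℝ) • (t 4 + r)) c e 4 =
      (1 / 5760 : ℝ) • (td4 t * w) + w * q * (-(1 / 192 : ℝ) • t 1 ^ 2 +
        (1 / 576 : ℝ) • t 2 + (1 / 1152 : ℝ) • q) + (1 / 2880 : ℝ) • (w * r) := by
    simp only [tdx, td4]
    algebra
  rw [k, h, h', zero_mul, add_zero, smul_zero, add_zero]

theorem b4 (s : ℝ) (x a b c e : B) :
    tdx (s • x) a b c e 4 = ((1 / 2 : ℝ) • a ^ 2 + b) + (s ^ 2 / 2) • (x ^ 2 * a) +
      (s ^ 4 / 24) • x ^ 4 := by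
  simp only [tdx]
  algebra

theorem b5 (s : ℝ) (x a b c e : B) :
    tdx (s • x) a b c e 5 = s • (x * ((1 / 2 : ℝ) • a ^ 2 + b)) + (s ^ 3 / 6) • (x ^ 3 * a) +
      (s ^ 5 / 120) • x ^ 5 := by
  simp only [tdx]
  algebra

end alg

variable {T : CT} {n y : ℕ} {V : Mf n} {Y : Mf y} {π : V.X → Y.X}

theorem big (hT : T.OK) (h : Sub n y π) (k : ℕ) (a : T.H Y) (hk : y < k) (ha : T.Dg Y k a) :
    T.pull h.hol a = 0 := by
  rw [← ha, hT.rg.pr_zero _ _ _ hk, map_zero]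

theorem kill (hT : T.OK) (h : Sub n y π) (k l : ℕ) (hk : y < k + l) :
    T.pull h.hol (cX T Y) ^ k * T.pull h.hol (T.ps Y (VB.tan y Y.X) l) = 0 := by
  rw [← map_pow, ← map_mul]
  exact big hT h (k + l) _ hk
    (hT.rg.dg_mul _ _ _ _ _ (dg_pow hT (dg_cX hT Y) k) (hT.ch.deg _ _ l))

theorem split (h : Sub n y π) (k : ℕ) :
    T.ps V (VB.tan n V.X) k = tr T h.hol k + T.pull h.hol (T.ps Y (VB.tan y Y.X) k) :=
  (sub_add_cancel _ _).symm

theorem rr (hH : H0P) (th : Th T) (h : Sub n y π) (fV : Fa T V) (fY : Fa T Y)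
    (hc : ∀ b, IsConnected (π ⁻¹' {b})) (k : ℕ) :
    T.RR V ((k : ℝ) • T.pull h.hol (cX T Y)) = T.RR Y ((k : ℝ) • cX T Y) := by
  have hT := th.ok
  have kY : T.Kc Y (cX T Y) := by rw [cX, hT.ch.tan]; exact fY
  have l1 := lb_pow (lb_inv (lb_can Y)) k
  have c1 : T.c1 Y ((Bd.inv (Bd.can y Y.X)).pow k) = (k : ℝ) • cX T Y := by
    rw [hT.c1.pow Y _ k (lb_inv (lb_can Y)), c1_acan hT]
  have c2 : T.c1 V (pull π ((Bd.inv (Bd.can y Y.X)).pow k)) =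
      (k : ℝ) • T.pull h.hol (cX T Y) := by
    rw [hT.c1.pull h.hol _ l1, c1, map_smul]
  have n1 := nn_smul hT (kc_nn hT kY) (Nat.cast_nonneg k)
  rw [← c1, ← c2, ← th.hrr V _ (h.hol.lb l1), ← th.hrr Y _ l1, hH π _ h hc l1]
  · rw [Ld.Ap, c1, sub_eq_neg_add]
    exact kc_add hT fY n1
  · rw [Ld.Ap, c2, sub_eq_neg_add, ← map_smul]
    exact kc_add hT fV (nn_pull hT h.hol n1)

theorem shift (h : Sub n y π) (k : ℝ) :
    k • T.pull h.hol (cX T Y) + (1 / 2 : ℝ) • T.ps V (VB.tan n V.X) 1 =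
      (k + 1 / 2) • T.pull h.hol (cX T Y) + (1 / 2 : ℝ) • tr T h.hol 1 := by
  rw [tr, smul_sub, add_smul]
  abel

end GrrH

open GrrH in
theorem grr47_of (hH : H0P) : ∀ T : CT, Th T → ∀ {V : Mf 7} {Y : Mf 4} {π : V.X → Y.X}
    (h : Sub 7 4 π), Fa T V → Fa T Y → (∀ b, IsConnected (π ⁻¹' {b})) →
    T.int V (td4 (tr T h.hol) * T.pull h.hol (T.ps Y (VB.tan 4 Y.X) 1 ^ 3)) = 0 := by
  intro T th V Y π h fV fY hc
  have hT := th.ok
  have x5 : T.pull h.hol (cX T Y) ^ 5 = 0 := by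
    rw [← map_pow]
    exact big hT h 5 _ (by norm_num) (dg_pow hT (dg_cX hT Y) 5)
  obtain ⟨A0, A1, A2, A4, B0, B2, B4, e⟩ : ∃ A0 A1 A2 A4 B0 B2 B4 : ℝ, ∀ k : ℕ,
      A0 + (k + 1 / 2) * A1 + (k + 1 / 2) ^ 2 / 2 * A2 + (k + 1 / 2) ^ 3 / 6 * (1 / 5760 *
        T.int V (td4 (tr T h.hol) * T.pull h.hol (cX T Y) ^ 3)) + (k + 1 / 2) ^ 4 / 24 * A4 =
      B0 + (k + 1 / 2) ^ 2 / 2 * B2 + (k + 1 / 2) ^ 4 / 24 * B4 := ⟨_, _, _, _, _, _, _, fun k => by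
    have e2 := rr hH th h fV fY hc k
    rw [CT.RR, CT.RR, coeff_td _ _ (by norm_num), coeff_td _ _ (by norm_num), shift h,
      ← add_smul, b4, tay7 x5, split h 2, split h 4,
      four (kill hT h 3 2 (by norm_num)) (kill hT h 3 4 (by norm_num)), map_add, map_add, map_add,
      map_add, map_add, map_add] at e2
    simpa only [map_smul, smul_eq_mul] using e2⟩
  have e0 := e 0
  have e1 := e 1
  have e2 := e 2
  have e3 := e 3
  have e4 := e 4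
  rw [map_pow]
  push_cast at e0 e1 e2 e3 e4
  linarith

open GrrH in
theorem grr58_of (hH : H0P) : ∀ T : CT, Th T → ∀ {V : Mf 8} {Y : Mf 5} {π : V.X → Y.X}
    (h : Sub 8 5 π), Fa T V → Fa T Y → (∀ b, IsConnected (π ⁻¹' {b})) →
    T.int V (td4 (tr T h.hol) * T.pull h.hol (T.ps Y (VB.tan 5 Y.X) 1 ^ 4)) = 0 := by
  intro T th V Y π h fV fY hc
  have hT := th.ok
  have x6 : T.pull h.hol (cX T Y) ^ 6 = 0 := by
    rw [← map_pow]
    exact big hT h 6 _ (by norm_num) (dg_pow hT (dg_cX hT Y) 6)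
  obtain ⟨A0, A1, A2, A3, A5, B1, B3, B5, e⟩ : ∃ A0 A1 A2 A3 A5 B1 B3 B5 : ℝ, ∀ k : ℕ,
      A0 + (k + 1 / 2) * A1 + (k + 1 / 2) ^ 2 / 2 * A2 + (k + 1 / 2) ^ 3 / 6 * A3 +
        (k + 1 / 2) ^ 4 / 24 * (1 / 5760 *
        T.int V (td4 (tr T h.hol) * T.pull h.hol (cX T Y) ^ 4)) + (k + 1 / 2) ^ 5 / 120 * A5 =
      (k + 1 / 2) * B1 + (k + 1 / 2) ^ 3 / 6 * B3 + (k + 1 / 2) ^ 5 / 120 * B5 :=
    ⟨_, _, _, _, _, _, _, _, fun k => by
    have e2 := rr hH th h fV fY hc k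
    rw [CT.RR, CT.RR, coeff_td _ _ (by norm_num), coeff_td _ _ (by norm_num), shift h,
      ← add_smul, b5, tay8 x6, split h 2, split h 4,
      four (kill hT h 4 2 (by norm_num)) (kill hT h 4 4 (by norm_num)), map_add, map_add, map_add,
      map_add, map_add, map_add, map_add] at e2
    simpa only [map_smul, smul_eq_mul] using e2⟩
  have e0 := e 0
  have e1 := e 1
  have e2 := e 2
  have e3 := e 3
  have e4 := e 4
  have e5 := e 5
  rw [map_pow]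
  push_cast at e0 e1 e2 e3 e4 e5
  linarith

end Vale.Agent.P280X.G7
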