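import Vale.Agent.P280Z.Pr.Defs
import Vale.Agent.P280Z.Rh.Api
import Vale.Agent.P280Z.Hr.Tdx
import Vale.Agent.P280Z.Gm.Rt

/-!
# P280X, block G7: the Hilbert polynomial of the flag manifold of dimension seven
-/

open Vale.Agent.P272.K Vale.Agent.P285.H281.FD Vale.Agent.P281Z
open Vale.Agent.P277Z.Slc (lin)
open Vale.Agent.P277.HD (pull)
open Vale.Agent.P280Z Vale.Agent.P280Z.Rh
open Vale.Agent.P280Z.Ld (h0)

noncomputable section

namespace Vale.Agent.P280X.Hb2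

/-- the Hilbert polynomial -/
def pl (v d4 d3 d2 d1 c3 c2 c1 c0 f g a b : ℝ) : ℝ :=
  (a ^ 4 * b ^ 3 * v + a ^ 3 * b ^ 4 * v) / 144 +
  (5 * a ^ 4 * b * d4 + 10 * a ^ 3 * b ^ 2 * d3 + 10 * a ^ 2 * b ^ 3 * d2 + 5 * a * b ^ 4 * d1) / 120 +
  (a ^ 3 * c3 + 3 * a ^ 2 * b * c2 + 3 * a * b ^ 2 * c1 + b ^ 3 * c0) / 6 + (a * f + b * g)

theorem ex7 {A : Type} [CommRing A] [Algebra ℝ A] (I : A →ₗ[ℝ] ℝ) {x H : A} (α β γ : A)
    (hx : x ^ 5 = 0) (hH : H ^ 5 = 0) {v : ℝ} (h1 : I (H ^ 3 * x ^ 4) = v)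
    (h2 : I (x ^ 3 * H ^ 4) = v) (a b : ℝ) :
    I ((1 / 5040 : ℝ) • (a • x + b • H) ^ 7 + (1 / 120 : ℝ) • ((a • x + b • H) ^ 5 * α) +
      (1 / 6 : ℝ) • ((a • x + b • H) ^ 3 * β) + (a • x + b • H) * γ) =
    pl v (I (x ^ 4 * H * α)) (I (x ^ 3 * H ^ 2 * α)) (I (x ^ 2 * H ^ 3 * α)) (I (x * H ^ 4 * α))
      (I (x ^ 3 * β)) (I (x ^ 2 * H * β)) (I (x * H ^ 2 * β)) (I (H ^ 3 * β)) (I (x * γ))
      (I (H * γ)) a b := by
  have e7 : (a • x + b • H) ^ 7 =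
      (35 * a ^ 4 * b ^ 3) • (H ^ 3 * x ^ 4) + (35 * a ^ 3 * b ^ 4) • (x ^ 3 * H ^ 4) := by
    simp only [Algebra.smul_def, map_mul, map_pow, map_ofNat]
    generalize algebraMap ℝ A a = p
    generalize algebraMap ℝ A b = q
    linear_combination (p ^ 7 * x ^ 2 + 7 * p ^ 6 * q * x * H + 21 * p ^ 5 * q ^ 2 * H ^ 2) * hx +
      (q ^ 7 * H ^ 2 + 7 * p * q ^ 6 * x * H + 21 * p ^ 2 * q ^ 5 * x ^ 2) * hH
  have e5 : (a • x + b • H) ^ 5 * α = (5 * a ^ 4 * b) • (x ^ 4 * H * α) +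
      (10 * a ^ 3 * b ^ 2) • (x ^ 3 * H ^ 2 * α) + (10 * a ^ 2 * b ^ 3) • (x ^ 2 * H ^ 3 * α) +
      (5 * a * b ^ 4) • (x * H ^ 4 * α) := by
    simp only [Algebra.smul_def, map_mul, map_pow, map_ofNat]
    generalize algebraMap ℝ A a = p
    generalize algebraMap ℝ A b = q
    linear_combination (p ^ 5 * α) * hx + (q ^ 5 * α) * hH
  have e3 : (a • x + b • H) ^ 3 * β = a ^ 3 • (x ^ 3 * β) + (3 * a ^ 2 * b) • (x ^ 2 * H * β) +
      (3 * a * b ^ 2) • (x * H ^ 2 * β) + b ^ 3 • (H ^ 3 * β) := by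
    simp only [Algebra.smul_def, map_mul, map_pow, map_ofNat]
    ring
  rw [e7, e5, e3, add_mul, smul_mul_assoc, smul_mul_assoc]
  simp only [map_add, map_smul, smul_eq_mul, h1, h2, pl]
  ring

theorem fin {p : ℝ → ℝ → ℝ} {v d4 d3 d2 d1 c3 c2 c1 c0 f g : ℝ}
    (hp : ∀ a b, p a b = pl v d4 d3 d2 d1 c3 c2 c1 c0 f g (a + 2) (b + 2)) (o : p 0 0 = 1)
    (z : ∀ (i j l : ℤ) (a b : ℝ), a = -4 * i - 5 * l → b = -4 * i - 5 * j → -4 < a → -4 < b →
      (a < 0 ∨ b < 0) → p a b = 0) : v = 1 ∧ p 1 1 = 24 := by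
  have a1 := z (-1) 1 1 (-1) (-1) (by norm_num) (by norm_num) (by norm_num) (by norm_num) (by norm_num)
  have a2 := z (-1) 0 1 (-1) 4 (by norm_num) (by norm_num) (by norm_num) (by norm_num) (by norm_num)
  have a3 := z (-1) (-1) 1 (-1) 9 (by norm_num) (by norm_num) (by norm_num) (by norm_num) (by norm_num)
  have a4 := z 2 (-2) (-1) (-3) 2 (by norm_num) (by norm_num) (by norm_num) (by norm_num) (by norm_num)
  have a5 := z 2 (-3) (-1) (-3) 7 (by norm_num) (by norm_num) (by norm_num) (by norm_num) (by norm_num)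
  have a6 := z (-2) 1 2 (-2) 3 (by norm_num) (by norm_num) (by norm_num) (by norm_num) (by norm_num)
  have a7 := z (-2) 0 2 (-2) 8 (by norm_num) (by norm_num) (by norm_num) (by norm_num) (by norm_num)
  have b2 := z (-1) 1 0 4 (-1) (by norm_num) (by norm_num) (by norm_num) (by norm_num) (by norm_num)
  have b3 := z (-1) 1 (-1) 9 (-1) (by norm_num) (by norm_num) (by norm_num) (by norm_num) (by norm_num)
  have b4 := z 2 (-1) (-2) 2 (-3) (by norm_num) (by norm_num) (by norm_num) (by norm_num) (by norm_num)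
  have b5 := z 2 (-1) (-3) 7 (-3) (by norm_num) (by norm_num) (by norm_num) (by norm_num) (by norm_num)
  have b6 := z (-2) 2 1 3 (-2) (by norm_num) (by norm_num) (by norm_num) (by norm_num) (by norm_num)
  have b7 := z (-2) 2 0 8 (-2) (by norm_num) (by norm_num) (by norm_num) (by norm_num) (by norm_num)
  rw [hp] at *
  norm_num only [pl] at *
  constructor <;> linarith

variable {T : CT} {V : Mf 7} {Y : Mf 4} {π : V.X → Y.X} {w : T.H Y} {x : T.H V}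

theorem p5 (hT : T.OK) (h : Sub 7 4 π) (k : T.Kc Y w) : T.pull h.hol w ^ 5 = 0 := by
  rw [← map_pow, ← Ma.dg_pow hT (hT.po.deg k) 5, hT.rg.pr_zero _ _ _ (by norm_num), map_zero]

theorem vol (hT : T.OK) (h : Sub 7 4 π) (k : T.push π (x ^ 3) = 1) :
    T.int V (x ^ 3 * T.pull h.hol w ^ 4) = T.int Y (w ^ 4) := by
  rw [← hT.pu.int h, ← map_pow, hT.pu.proj h, k, one_mul]

theorem cp (hT : T.OK) (h : Sub 7 4 π) (k : T.c1 Y (Bd.can 4 Y.X) = (-5 : ℝ) • w) :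
    T.c1 V (pull π (Bd.can 4 Y.X)) = (-5 : ℝ) • T.pull h.hol w := by
  rw [hT.c1.pull h.hol _ (lb_can Y), k, map_smul]

/-- the degree of the bases and the number of sections -/
theorem hilb (th : Th T) {Y' : Mf 4} {π' : V.X → Y'.X} (h : Sub 7 4 π) (h' : Sub 7 4 π')
    {w' : T.H Y'} (conn : ConnectedSpace V.X) (lk : T.Kc Y w) (rk : T.Kc Y' w')
    (lc : T.c1 Y (Bd.can 4 Y.X) = (-5 : ℝ) • w) (rc : T.c1 Y' (Bd.can 4 Y'.X) = (-5 : ℝ) • w')
    (lv : T.push π (T.pull h'.hol w' ^ 3) = 1) (rv : T.push π' (T.pull h.hol w ^ 3) = 1)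
    (ln : ∀ M, IsLB 7 M → ∀ a b : ℝ, a < 0 →
      T.c1 V M = a • T.pull h'.hol w' + b • T.pull h.hol w → h0 7 M = 0)
    (rn : ∀ M, IsLB 7 M → ∀ a b : ℝ, a < 0 →
      T.c1 V M = a • T.pull h.hol w + b • T.pull h'.hol w' → h0 7 M = 0)
    (can : T.c1 V (Bd.can 7 V.X) = (-4 : ℝ) • (T.pull h.hol w + T.pull h'.hol w'))
    (kc : ∀ a b : ℝ, 0 < a → 0 < b → T.Kc V (a • T.pull h.hol w + b • T.pull h'.hol w'))
    (eq : T.int Y (w ^ 4) = T.int Y' (w' ^ 4)) :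
    T.int Y (w ^ 4) = 1 ∧ T.RR V (T.pull h.hol w + T.pull h'.hol w') = 24 := by
  have hT := th.ok
  obtain ⟨d4, d3, d2, d1, c3, c2, c1, c0, f, g, r⟩ : ∃ d4 d3 d2 d1 c3 c2 c1 c0 f g : ℝ, ∀ a b : ℝ,
      T.RR V (a • T.pull h'.hol w' + b • T.pull h.hol w) =
        pl (T.int Y (w ^ 4)) d4 d3 d2 d1 c3 c2 c1 c0 f g (a + 2) (b + 2) := by
    refine ⟨?_, ?_, ?_, ?_, ?_, ?_, ?_, ?_, ?_, ?_, fun a b => ?_⟩
    rotate_right
    have e : a • T.pull h'.hol w' + b • T.pull h.hol w + (1 / 2 : ℝ) • T.ps V (VB.tan 7 V.X) 1 =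
        (a + 2) • T.pull h'.hol w' + (b + 2) • T.pull h.hol w := by
      rw [hT.ch.tan, can]
      module
    rw [CT.RR, Hr.coeff_td _ _ (by norm_num), Hr.tdx, e,
      ex7 _ _ _ _ (p5 hT h' rk) (p5 hT h lk) ((vol hT h' rv).trans eq.symm) (vol hT h lv)]
  have o := (Gm.rt T hT th.hrr).1 V conn (by
    have := kc 4 4 (by norm_num) (by norm_num)
    rw [Gm.Fa, can]
    exact (congrArg (T.Kc V) (by module)).mp this)
  have k := fin (p := fun a b => T.RR V (a • T.pull h'.hol w' + b • T.pull h.hol w)) r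
    (by simpa only [zero_smul, add_zero] using o) (fun i j l a b ha hb h1 h2 h3 => ?_)
  · simpa only [one_smul, add_comm] using k
  have hL : ∀ s, IsLB 7 (![Bd.can 7 V.X, pull π (Bd.can 4 Y.X), pull π' (Bd.can 4 Y'.X)] s) :=
    fun s => by
      fin_cases s
      exacts [lb_can V, h.hol.lb (lb_can Y), h'.hol.lb (lb_can Y')]
  have hM := lb_lin hL ![i, j, l]
  have e : T.c1 V (lin ![Bd.can 7 V.X, pull π (Bd.can 4 Y.X), pull π' (Bd.can 4 Y'.X)]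
      ![i, j, l]) = a • T.pull h'.hol w' + b • T.pull h.hol w := by
    rw [hT.c1.lin V _ _ hL, Fin.sum_univ_three]
    simp only [Matrix.cons_val_zero, Matrix.cons_val_one, Matrix.cons_val]
    rw [can, cp hT h lc, cp hT h' rc, ha, hb]
    module
  show T.RR V _ = 0
  rw [← e, ← th.hrr V _ hM (by
    have := kc (b + 4) (a + 4) (by linarith) (by linarith)
    rw [Ld.Ap, e, can]
    exact (congrArg (T.Kc V) (by module)).mp this), Nat.cast_eq_zero]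
  exact h3.elim (fun c => ln _ hM a b c e) fun c => rn _ hM b a c (e.trans (add_comm _ _))

end Vale.Agent.P280X.Hb2
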