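import Vale.Agent.P280X.G7.Defs
import Vale.Agent.P280X.G7.Hilb2

/-!
# P280X, block G7: the row HILB7
-/

namespace Vale.Agent.P280X.G7

/-- row HILB7 -/
theorem hilb7b : HILB7 := fun _ _ _ _ _ _ h h' _ _ k =>
  Hb2.hilb k.th h h' k.conn k.l.kc k.r.kc k.l.can k.r.can k.l.vol k.r.vol k.l.neg k.r.neg k.can
    k.kc k.eq

end Vale.Agent.P280X.G7
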