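import Vale.Agent.P280X.G7.Defs
import Vale.Agent.P280Z.Pr.Inv5
import Vale.Agent.P280Z.En.Val
import Vale.Agent.P280Z.Ld.Iso
import Vale.Agent.P280Z.Gm.Bad
import Vale.Agent.P280Z.Gm.Fibi

/-!
# P280X, block G7: the bilinear relation is non degenerate
-/

open scoped Manifold ContDiff Topology Matrix
open Set Filter
open Vale.Agent.P272.K Vale.Agent.P285.H281.FD Vale.Agent.P281Z Vale.Agent.P280Z
open Vale.Agent.P277Z (Hol at_chart hol_const)
open Vale.Agent.P277Z.Slc (dd dd_congr)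
open Vale.Agent.P277.HD (pull)
open Vale.Agent.P280Z.Ld (Va Bs not_nz)
open Vale.Agent.P280Z.Pr.Inv5 (dd_lin dd_min)
open Module (finrank)

noncomputable section

namespace Vale.Agent.P280X.G7

namespace Inv16

variable {n : ℕ} {X : Type} [TopologicalSpace X] [ChartedSpace (Cm n) X] {x : X} {e : Chart n X}

/-- a linear relation between functions whose derivatives, with the image of `Ψ`, span -/
theorem key {W : Type} [AddCommGroup W] [Module ℂ W] [FiniteDimensional ℂ W] {u : Fin 5 → X → ℂ}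
    (hu : ∀ a, Hol n (u a) x) (he : At e x) (Ψ : W →ₗ[ℂ] (Fin 5 → ℂ)) (hd : n + finrank ℂ W = 5)
    (hi : ∀ v w, (∀ j, dd (u j) e x v = Ψ w j) → v = 0 ∧ w = 0) {l : Fin 5 → ℂ}
    (h1 : ∀ᶠ y in 𝓝 x, l ⬝ᵥ (fun j => u j y) = 0) (h2 : ∀ w, l ⬝ᵥ Ψ w = 0) : l = 0 := by
  have h3 := (LinearMap.injective_iff_surjective_of_finrank_eq_finrank
    (f := (LinearMap.pi fun j => (dd (u j) e x).toLinearMap).coprod (-Ψ)) (by simpa using hd)).1
    ((injective_iff_map_eq_zero _).2 fun q hq => by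
      have := hi q.1 q.2 fun j => sub_eq_zero.1 (by
        have := congrFun hq j
        rwa [sub_eq_add_neg])
      exact Prod.ext this.1 this.2)
  refine dotProduct_eq_zero _ fun t => ?_
  obtain ⟨q, rfl⟩ := h3 t
  rw [LinearMap.coprod_apply, dotProduct_add, LinearMap.neg_apply, dotProduct_neg, h2, neg_zero,
    add_zero]
  refine (dd_lin hu he l q.1).symm.trans ?_
  rw [dd_congr (a := fun y => ∑ a, l a * u a y) (b := fun _ => 0) h1 he]
  exact En.ValX.dd_c 0 _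

theorem ex_ne {V : Mf n} {L : Bd V.X} {s : Fin 5 → L.ι → V.X → ℂ} (h : Va n L s) {a : L.ι}
    {x : V.X} (ha : x ∈ L.U a) : ∃ l, s l a x ≠ 0 := by
  by_contra! k
  exact (h.bpf ▸ (fun j => (not_nz h.lb (h.sec j).1 ha).2 (k j) : x ∈ Bs L s) : x ∈ (∅ : Set V.X))

end Inv16

open Inv16 in
theorem inv16 : INV7 := by
  intro T V Y Y' π π' h h' w w' k L L' s s' m _ hL' va va' hm hR hd
  have hT := k.th.ok
  obtain ⟨t, ht, hmt⟩ := Matrix.exists_mulVec_eq_zero_iff.2 hd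
  obtain ⟨l₀, hl₀⟩ := Function.ne_iff.1 ht
  let S : V.X → Prop := fun z => ∃ b, π' z ∈ L'.U b ∧
    ∀ j j', t j * s' j' b (π' z) = t j' * s' j b (π' z)
  have hA : ∀ y a, y ∈ L.U a → (fun i => s i a y) ᵥ* m ≠ 0 → ∃ z, S z ∧ π z = y := by
    intro y a ha h0
    by_contra! hn
    obtain ⟨⟨Z, i, hi⟩, hf⟩ := Gm.fibi T hT (d := 3) π y rfl h
    have hg : HolM 3 4 fun z => π' (i z) := h'.hol.comp hi.hol
    have hS : ∀ z b, π' (i z) ∈ L'.U b → ¬ ∀ j j', t j * s' j' b (π' (i z)) =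
        t j' * s' j b (π' (i z)) := fun z b hb k1 => hn _ ⟨b, hb, k1⟩ (hi.mem z)
    have hs : ∀ q : Fin 5 × Fin 5, IsSec 3 (pull (fun z => π' (i z)) L') fun b z =>
        t q.1 * s' q.2 b (π' (i z)) - t q.2 * s' q.1 b (π' (i z)) := fun q =>
      hg.sec (sub_mem (Submodule.smul_mem _ (t q.1) (va'.sec q.2))
        (Submodule.smul_mem _ (t q.2) (va'.sec q.1))).1
    obtain ⟨b, z, e, hb, he, h1⟩ := En.ima_of Ld.iso T hT Z _ (Fin 5 × Fin 5) _ (hg.lb va'.lb) hs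
      (eq_empty_of_forall_notMem fun z hz => by
        obtain ⟨b, hb⟩ := va'.lb.cover (π' (i z))
        exact hS z b hb fun j j' =>
          sub_eq_zero.1 ((not_nz (hg.lb va'.lb) (hs (j, j')) hb).1 (hz (j, j')))) (by
        rw [hT.c1.pull hg _ va'.lb, hL', hT.rg.pull_comp hi.hol h'.hol hg (fun _ => rfl), ← map_pow,
          hf Z i hi _ 1 (by rw [k.l.vol, map_one])]
        exact one_ne_zero)
    have hu : ∀ j, Hol 3 (fun z => s' j b (π' (i z))) z := fun j =>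
      hg.hol (sec_hol (va'.sec j).1 hb)
    have h2 : ∀ z, π' (i z) ∈ L'.U b → ((fun i => s i a y) ᵥ* m) ⬝ᵥ
        (fun j => s' j b (π' (i z))) = 0 := fun z hz => by
      have h3 : π (i z) = y := hi.mem z
      rw [← Matrix.dotProduct_mulVec, ← h3]
      exact hR _ a b (h3 ▸ ha) hz
    refine h0 (key hu he ((LinearMap.toSpanSingleton ℂ _ fun j => s' j b (π' (i z))).coprod
      (LinearMap.toSpanSingleton ℂ _ t)) (by simp) (fun v c hc => ?_)
      ((lb_near (hg.lb va'.lb) hb).mono h2) fun c => ?_)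
    · have hc' : ∀ j, dd (fun z => s' j b (π' (i z))) e z v =
          c.1 * s' j b (π' (i z)) + c.2 * t j := hc
      obtain rfl := h1 v c.1 fun q => by
        rw [dd_min (hu _) (hu _) he, hc', hc']
        ring
      simp only [map_zero] at hc'
      have h4 : c.1 = 0 := by
        by_contra h4
        exact hS z b hb fun j j' => mul_left_cancel₀ h4 (by
          linear_combination t j' * hc' j - t j * hc' j')
      have h5 := hc' l₀
      rw [h4, zero_mul, zero_add] at h5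
      exact ⟨rfl, Prod.ext h4 ((mul_eq_zero.1 h5.symm).resolve_right hl₀)⟩
    · rw [LinearMap.coprod_apply, LinearMap.toSpanSingleton_apply, LinearMap.toSpanSingleton_apply,
        dotProduct_add, dotProduct_smul, dotProduct_smul, h2 z hb, ← Matrix.dotProduct_mulVec, hmt,
        dotProduct_zero, smul_zero, smul_zero, add_zero]
  have hB : ∀ z z', S z → S z' → π' z = π' z' := fun z z' ⟨b, hb, h1⟩ ⟨b', hb', h2⟩ =>
    va'.pts _ _ b b' hb hb' fun j j' => mul_left_cancel₀ (mul_ne_zero hl₀ hl₀) (by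
      linear_combination t l₀ * s' j' b' (π' z') * h1 l₀ j + t j * s' l₀ b (π' z) * h2 l₀ j' -
        t l₀ * s' j b' (π' z') * h1 l₀ j' - t j' * s' l₀ b (π' z) * h2 l₀ j)
  obtain ⟨y⟩ := k.l.conn.toNonempty
  obtain ⟨a, ha⟩ := va.lb.cover y
  have hu : ∀ {y}, y ∈ L.U a → ∀ j, Hol 4 (s j a) y := fun hy j => sec_hol (va.sec j).1 hy
  obtain ⟨y₁, ha₁, j, h1⟩ : ∃ y₁ ∈ L.U a, ∃ j, ((fun i => s i a y₁) ᵥ* m) j ≠ 0 := by
    by_contra! h0
    have h1 : ∀ j, ∀ y₁ ∈ L.U a, (fun i => m i j) ⬝ᵥ (fun i => s i a y₁) = 0 := fun j y₁ hy =>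
      (dotProduct_comm _ _).trans (h0 y₁ hy j)
    refine hm (Matrix.ext fun i j => congrFun (key (hu ha) (at_chart y)
      (LinearMap.toSpanSingleton ℂ _ fun i => s i a y) (by simp) (fun v c hc => ?_)
      ((lb_near va.lb ha).mono (h1 j)) fun c => ?_) i)
    · have hc' : ∀ j, dd (s j a) (chartAt (Cm 4) y) y v = c * s j a y := hc
      obtain rfl := va.tan y a _ v ha (at_chart y) fun j j' => by rw [hc', hc']; ring
      obtain ⟨l, hl⟩ := ex_ne va ha
      have h2 := hc' l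
      rw [map_zero] at h2
      exact ⟨rfl, (mul_eq_zero.1 h2.symm).resolve_right hl⟩
    · rw [LinearMap.toSpanSingleton_apply, dotProduct_smul, h1 j y ha, smul_zero]
  obtain ⟨z₁, k1, -⟩ := hA y₁ a ha₁ fun h0 => h1 (congrFun h0 j)
  obtain ⟨⟨Z, i, hi⟩, -⟩ := Gm.fibi T hT (d := 3) π' (π' z₁) rfl h'
  have h2 : ∀ᶠ y in 𝓝 y₁, y ∈ L.U a ∧ ((fun i => s i a y) ᵥ* m) j ≠ 0 :=
    (lb_near va.lb ha₁).and
      ((Hol.sum Finset.univ fun i _ => (hu ha₁ i).mul (hol_const (m i j) _)).ne_near h1)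
  obtain ⟨y₂, k2, k3, k4⟩ := (Gm.bad.2 Z Y (fun z => π (i z)) (by norm_num)
    (h.hol.comp hi.hol)).inter_nhds_nonempty h2
  obtain ⟨z₂, k5, k6⟩ := hA y₂ a k3 fun h0 => k4 (congrFun h0 j)
  obtain ⟨z, rfl⟩ := hi.ex (y := z₂) (hB _ _ k5 k1)
  exact k2 ⟨z, k6⟩

end Vale.Agent.P280X.G7
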