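import Vale.Agent.P280X.G7.Defs
import Vale.Agent.P280Z.Pr.Rel5

/-!
# P280X, block G7: the bilinear relation, and the separation of tangent vectors
-/


open scoped Manifold ContDiff Topology Matrix
open Set Filter
open Vale.Agent.P272.K Vale.Agent.P285.H281.FD Vale.Agent.P281Z Vale.Agent.P280Z
open Vale.Agent.P277Z (Hol hol_const)
open Vale.Agent.P277Z.Slc (dd)
open Vale.Agent.P277.HD (pull)
open Vale.Agent.P280Z.Ld
open Vale.Agent.P280Z.En (Pm)
open Vale.Agent.P280Z.Rh Vale.Agent.P280Z.Pr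

noncomputable section

namespace Vale.Agent.P280X.G7

open Vale.Agent.P280Z.Pr.Rel5H

/-- **row REL7** -/
theorem rel7 : REL7 := by
  intro T V Y Y' π π' h h' w w' k hR L L' s s' c c' v v'
  have hT := k.th.ok
  have l := lb_mul (h.hol.lb v.lb) (h'.hol.lb v'.lb)
  have c1 : T.c1 V ((pull π L).mul (pull π' L')) = T.pull h.hol w + T.pull h'.hol w' := by
    rw [hT.c1.mul V _ _ (h.hol.lb v.lb) (h'.hol.lb v'.lb), hT.c1.pull h.hol _ v.lb,
      hT.c1.pull h'.hol _ v'.lb, c, c']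
  have kc := k.kc 5 5 (by norm_num) (by norm_num)
  have h1 := k.th.hrr V _ l (by
    rw [Ap, c1, k.can]
    refine (congrArg (T.Kc V) ?_).mp kc
    module)
  rw [c1, hR] at h1
  have h2 : h0 7 ((pull π L).mul (pull π' L')) = 24 := by exact_mod_cast h1
  have := Ld.fin V _ ((hT.po.kah V).2 ⟨_, kc⟩) l
  let φ : Matrix (Fin 5) (Fin 5) ℂ →ₗ[ℂ] (((pull π L).mul (pull π' L')).ι → V.X → ℂ) :=
    { toFun := fun m a z => (fun i => s i a.1 (π z)) ⬝ᵥ m *ᵥ fun j => s' j a.2 (π' z)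
      map_add' := fun m m' => funext₂ fun a z => by
        rw [Matrix.add_mulVec, dotProduct_add]
        rfl
      map_smul' := fun r m => funext₂ fun a z => by
        rw [Matrix.smul_mulVec, dotProduct_smul]
        rfl }
  have hφ : ∀ m, IsSec 7 ((pull π L).mul (pull π' L')) (φ m) := fun m =>
    isSec_of (fun a z ha => Hol.sum Finset.univ fun i _ =>
      (h.hol.hol (sec_hol (v.sec i).1 ha.1)).mul (Hol.sum Finset.univ fun j _ =>
        (hol_const (m i j) _).mul (h'.hol.hol (sec_hol (v'.sec j).1 ha.2))))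
      fun a b z ha hb => by
        have e1 : (fun i => s i a.1 (π z)) = L.g a.1 b.1 (π z) • fun i => s i b.1 (π z) :=
          funext fun i => (v.sec i).1.change _ _ _ ha.1 hb.1
        have e2 : (fun i => s' i a.2 (π' z)) = L'.g a.2 b.2 (π' z) • fun i => s' i b.2 (π' z) :=
          funext fun i => (v'.sec i).1.change _ _ _ ha.2 hb.2
        change (fun i => s i a.1 (π z)) ⬝ᵥ m *ᵥ (fun j => s' j a.2 (π' z)) =
          L.g a.1 b.1 (π z) * L'.g a.2 b.2 (π' z) *
            ((fun i => s i b.1 (π z)) ⬝ᵥ m *ᵥ fun j => s' j b.2 (π' z))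
        rw [e1, e2, Matrix.mulVec_smul, smul_dotProduct, dotProduct_smul, smul_eq_mul, smul_eq_mul,
          mul_assoc]
  obtain ⟨m, m1, m2⟩ := Submodule.exists_mem_ne_zero_of_ne_bot (LinearMap.ker_ne_bot_of_finrank_lt
    (f := (nm _ ∘ₗ φ).codRestrict (Γ 7 _) fun m => nm_mem l (hφ m)) (by
      rw [Module.finrank_matrix]
      change h0 7 _ < _
      rw [h2]
      simp))
  refine ⟨m, m2, fun z a a' ha ha' => ?_⟩
  exact (nm_of (L := (pull π L).mul (pull π' L')) (s := φ m) (a := (a, a')) ⟨ha, ha'⟩).symm.trans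
    (congrFun₂ (congrArg Subtype.val m1) (a, a') z)

/-- **row SEP7** -/
theorem sep7_of (hA : ADJF) : SEP7 := by
  intro T V Y Y' π π' h h' w w' k L s c v x u u1 u2
  have hT := k.th.ok
  obtain ⟨⟨Z, i, hi⟩, f⟩ := Gm.fibi T hT (d := 3) π (π x) rfl h
  obtain ⟨z, rfl⟩ := hi.ex (y := x) rfl
  have hg := h'.hol.comp hi.hol
  obtain ⟨o, ho⟩ := (hT.po.kah Z).1 (hi.kah ((hT.po.kah V).2 ⟨_, k.kc 1 1 one_pos one_pos⟩))
  have c1 : T.c1 Z (pull (fun z => π' (i z)) L) = T.pull hi.hol (T.pull h'.hol w') := by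
    rw [hT.c1.pull hg _ v.lb, c, hT.rg.pull_comp hi.hol h'.hol hg fun _ => rfl]
  obtain ⟨a1, a2⟩ := hA T hT h hi rfl 0
  rw [zero_add, hT.ch.tan, hT.ch.tan, k.can, map_neg, neg_inj, map_smul, map_add] at a1
  rw [zero_add, hT.ch.tan, k.l.can, map_neg, map_neg, neg_eq_zero, map_smul, map_smul,
    smul_eq_zero_iff_right (by norm_num)] at a2
  obtain ⟨t, rfl⟩ := (hi.fib_ker h.hol (h.sbm _) (at_ch z) (at_ch _) (at_ch _) u).1 u1
  obtain ⟨a, ha⟩ := v.lb.cover (π' (i z))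
  rw [imm_of hT (hi.conn.2 (k.l.fib _)) ho (hg.lb v.lb) (fun j => hg.sec (v.sec j).1)
    (eq_empty_of_forall_notMem fun y hy => eq_empty_iff_forall_notMem.1 v.bpf _ hy)
    (by rw [c1, ← map_pow, f Z i hi _ 1 (k.l.vol.trans (map_one _).symm)]; exact one_ne_zero)
    (by rw [a1, a2, c1, zero_add, ← add_smul]; norm_num) (finSumFinEquiv (m := 4) (n := 1))
    (a := a) ha (at_ch z) t fun j => ?_, map_zero]
  refine (DFunLike.congr_fun (dd_comp (f := fun z => π' (i z)) (x := z) (sec_hol (v.sec j).1 ha)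
    (hg.at z) (at_ch z) (at_ch _)) t).trans ?_
  rw [df_comp (h'.hol.at _) (hi.hol.at z) (at_ch z) (at_ch _) (at_ch _)]
  exact (congrArg (dd (s j a) _ _) u2).trans (map_zero _)

end Vale.Agent.P280X.G7
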