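import Vale.Agent.P280X.G7.Defs2
import Vale.Agent.P280Z.Pr.Adjf
import Vale.Agent.P280Z.Rh.Fanq

/-!
# P280X, block G7: the row V3X
-/

open scoped Manifold ContDiff Topology Matrix
open Set Filter
open Vale.Agent.P272.K Vale.Agent.P285.H281.FD Vale.Agent.P281Z Vale.Agent.P280Z
open Vale.Agent.P277.HD (pull)
open Vale.Agent.P280Z.Ld (h0 Γ)
open Vale.Agent.P280Z.Rh Vale.Agent.P280Z.Pr

noncomputable section

namespace Vale.Agent.P280X.G7

namespace V3H

theorem van {T : CT} (hT : T.OK) {Z : Mf 3} [ConnectedSpace Z.X] {M : Bd Z.X} (hM : IsLB 3 M)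
    {x : T.H Z} (hx : T.Kc Z x) (e : T.c1 Z M = -x) : h0 3 M = 0 := by
  have hb : Γ 3 M = ⊥ := by
    refine (Submodule.eq_bot_iff _).2 fun s hs => funext fun a => funext fun z => ?_
    by_contra h0
    have ha : z ∈ M.U a := by
      by_contra k
      exact h0 (hs.2 a z k)
    have k := (hT.eff Z _ _ 2 (fun _ => x) rfl hM hs.1 (Jac.dense_nz hM hs.1 ha h0)
      fun _ => kc_nn hT hx).1
    have v := Ma.kc_vol hT hx z
    rw [Finset.prod_const, Finset.card_fin, e, neg_mul, ← pow_succ', map_neg] at k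
    linarith
  rw [h0, hb, finrank_bot]

end V3H

/-- row V3X -/
theorem v3x2 : V3X := by
  intro T th n y V Y π h x w M a b c hd hF hY hc dw e4 hM eM k1
  have hT := th.ok
  obtain ⟨p⟩ : Nonempty Y.X := inferInstance
  obtain ⟨⟨Z, i, hi⟩, k⟩ := Gm.fibi T hT π p hd h
  have cZ : ConnectedSpace Z.X := hi.conn.2 (hc p)
  have e1 := k Z i hi _ _ k1
  have w0 : T.pull hi.hol (T.pull h.hol w) = 0 := by
    rw [← hT.rg.pull_comp hi.hol h.hol (holM_const p) fun z => (hi.fib z).symm]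
    exact Ma.pull_const hT p (j := 0) dw
  have p1 : T.ps Z (VB.tan 3 Z.X) 1 = (4 : ℝ) • T.pull hi.hol x := by
    rw [(adjf T hT h hi hd 0).1, zero_add, e4, map_add, map_smul, map_smul, w0, smul_zero, add_zero]
  have kZ : T.Kc Z (cX T Z) := by
    rw [cX, (adjf T hT h hi hd 0).1, hT.ch.tan]
    exact Ma.kc_pull hT hi.hol (fun z v hv => hi.imm z _ _ (at_ch _) (at_ch _)
      (hv.trans (map_zero _).symm)) hF
  have hZ : Fano 3 Z.X := (fano_iff hT Z).2 ⟨cZ, kZ⟩
  have lM := hi.hol.lb hM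
  have cM : T.c1 Z (pull i M) = -T.pull hi.hol x := by
    rw [hT.c1.pull hi.hol _ hM, eM, map_add, map_neg, map_smul, w0, smul_zero, add_zero]
  rw [map_pow] at e1
  rw [cX, p1] at kZ
  generalize T.pull hi.hol x = u at e1 p1 kZ cM
  have ku : ∀ s : ℝ, 0 < s → T.Kc Z (s • u) := fun s hs => by
    have := hT.po.smul (s / 4) (by positivity) kZ
    rwa [smul_smul, div_mul_cancel₀ _ (by norm_num)] at this
  have rr : ∀ s : ℝ, T.RR Z (s • u) = (s + 2) ^ 3 / 6 * c +
      (s + 2) * T.int Z (u * -(1 / 24 : ℝ) • T.ps Z (VB.tan 3 Z.X) 2) := fun s => by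
    rw [CT.RR, Hr.coeff_td _ _ (by norm_num), Hr.tdx, p1, smul_smul, ← add_smul, smul_pow,
      smul_smul, smul_mul_assoc, map_add, map_smul, map_smul, e1, smul_eq_mul, smul_eq_mul]
    ring
  have r0 := (Gm.rt T hT th.hrr).1 Z cZ (fa_of hT hZ)
  have r1 := th.hrr Z _ lM (by
    have := ku 3 (by norm_num)
    rw [Ld.Ap, cM, ← neg_neg (T.c1 Z (Bd.can 3 Z.X)), ← hT.ch.tan, p1]
    exact (congrArg (T.Kc Z) (by module)).mp this)
  rw [V3H.van hT lM (one_smul ℝ u ▸ ku 1 one_pos) cM, cM, ← neg_one_smul ℝ u, rr] at r1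
  rw [← zero_smul ℝ u, rr] at r0
  push_cast at r1
  linarith

end Vale.Agent.P280X.G7
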