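import Vale.Agent.P280X.G7.K337
import Vale.Agent.P280X.G7.Grr
import Vale.Agent.P280X.G7.Hilb2b
import Vale.Agent.P280X.G7.Lb7
import Vale.Agent.P280X.G7.Rel5
import Vale.Agent.P280X.G7.Inv16
import Vale.Agent.P280X.G7.Fin2
import Vale.Agent.P280X.G7.V3x2
import Vale.Agent.P280Z.Pr.All

/-!
# P280X, block G7: the assembly of the rows
-/

open Vale.Agent.P280Z Vale.Agent.P280Z.Pr

namespace Vale.Agent.P280X.G7.A2

theorem grr47 : GRR47 := grr47_of (h0p_of Po.desc)

theorem gen7 : GEN7 := gen7_of hilb7b lb7 rel7 inv16 (sep7_of adjf) fin2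

theorem k337 : K337 := k337_of fax rd cm3 cmq grr47 posj neg v3x2 gen7

end Vale.Agent.P280X.G7.A2
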