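import Vale.Agent.P280X.G7.Defs2
import Vale.Agent.P280Z.Pr.K336
import Vale.Agent.P280Z.Pr.Fax
import Vale.Agent.P280Z.Pr.D3

/-!
# P280X, block G7: fibres of dimension three on a manifold of dimension seven
-/

open scoped Manifold ContDiff Topology Matrix
open Set Filter
open Vale.Agent.P272.K Vale.Agent.P285.H281.FD Vale.Agent.P281Z Vale.Agent.P280Z
open Vale.Agent.P280Z.Gm (Fa)
open Vale.Agent.P280Z.Rh Vale.Agent.P280Z.Pr Vale.Agent.P280Z.Pr.K336H

noncomputable section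

namespace Vale.Agent.P280X.G7

namespace Cm48

variable {T : CT}

theorem td_zero (g : GRR47) (hT : Th T) {y : ℕ} (hy : y = 4) {V : Mf 7} {Y : Mf y}
    {π : V.X → Y.X} (h : Sub 7 y π) (hV : Fano 7 V.X) (hY : Fano y Y.X)
    (hs : Function.Surjective π) (hc : ∀ b, IsConnected (π ⁻¹' {b}))
    (ht : ∀ k, T.Dg V k (tr T h.hol k)) {H : T.H V}
    (one : ∀ a, T.Dg Y 1 a → ∃ s : ℝ, T.pull h.hol a = s • H) (b : T.H Y) :
    T.int V (td4 (tr T h.hol) * T.pull h.hol b) = 0 := by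
  subst hy
  obtain ⟨cY, kY⟩ := (fano_iff hT.ok Y).1 hY
  have kV : V.Kah := (hT.ok.po.kah V).2 ⟨_, ((fano_iff hT.ok V).1 hV).2⟩
  have vol := Ma.kc_vol hT.ok kY (Classical.arbitrary _)
  have k0 := g T hT h (fa_of hT.ok hV) (fa_of hT.ok hY) hc
  have dP : T.Dg Y 1 (T.push π (td4 (tr T h.hol))) := by
    rw [CT.Dg, hT.ok.pu.deg h 3 rfl, dg_td hT.ok ht]
  have pr : ∀ b, T.int V (td4 (tr T h.hol) * T.pull h.hol b) =
      T.int Y (T.push π (td4 (tr T h.hol)) * b) := fun b => by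
    rw [← hT.ok.pu.proj h, hT.ok.pu.int h]
  rw [pr] at k0 ⊢
  generalize T.push π (td4 (tr T h.hol)) = P at k0 dP ⊢
  obtain ⟨s, e1⟩ := one P dP
  obtain ⟨c, e2⟩ := one _ (dg_cX hT.ok Y)
  have c0 : c ≠ 0 := fun e => by
    rw [pull_inj hT.ok h (d := 3) rfl hs cY kV (b := cX T Y) (by rw [e2, e, zero_smul])] at vol
    simp at vol
  have e3 : P = (s / c) • cX T Y := sub_eq_zero.1 (pull_inj hT.ok h (d := 3) rfl hs cY kV (by
    rw [map_sub, map_smul, e1, e2, smul_smul, div_mul_cancel₀ _ c0, sub_self]))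
  rw [e3, smul_mul_assoc, ← pow_succ', map_smul, smul_eq_mul] at k0
  rw [e3, (mul_eq_zero.1 k0).resolve_right vol.ne', zero_smul, zero_mul, map_zero]

end Cm48

/-- the push forward of the fourth power of the relative anticanonical class vanishes -/
theorem cm37 (g : GRR47) (T : CT) (V : Mf 7) (B : Bas T V) (i j : B.J) (h : Two B i j)
    (dj : (B.Q {j}).d = 3) :
    Cm0 (nsm (B.F j)) (B.Q {j}).d (B.Q {j}).y (tr T (B.Q {j}).sub.hol) := by
  have hT := h.th.ok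
  have cV := ((fano_iff hT V).1 h.cls.1).1
  have fa := fax T hT B.F j (B.Q {j}) cV
  have yj : (B.Q {j}).y = 4 := by have := (B.Q {j}).dim; omega
  have hm : (B.F j).m = 1 ∨ (B.F j).m = 2 := by
    have h1 := rd _ _ _ _ _ _ fa
    have h2 := h.pos j
    omega
  refine cm_cast ?_ dj
  rcases hm with hm | hm
  · intro k z hk hz
    refine cmq _ _ _ _ (fa_cast fa hm dj rfl) k z hk hz ?_
    obtain ⟨b, rfl⟩ := ((B.Q {j}).s4 z).1 (by rintro _ rfl; exact hz.2)
    refine Cm48.td_zero g h.th yj (B.Q {j}).sub h.cls.1 (B.cls {j}).1 (B.Q {j}).onto (B.Q {j}).fib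
      fa.dt (H := B.H i)
      (fun a ha => ⟨(B.F i).dg (T.pull (B.Q {j}).sub.hol a), ?_⟩) b
    have e := span h (Ma.dg_pull hT (B.Q {j}).sub.hol ha)
    rwa [(B.Q {j}).dg_pull hT rfl ha, zero_smul, add_zero] at e
  · exact cm3 _ _ _ _ (fa_cast fa hm dj rfl)

end Vale.Agent.P280X.G7
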