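import Vale.Agent.P280Z.Pr.Defs

/-!
# P280X, block G7: the flag manifold of dimension seven (definitions, rows)
-/

open scoped Manifold ContDiff Topology Matrix
open Set Filter
open Vale.Agent.P272.K Vale.Agent.P285.H281.FD Vale.Agent.P281Z Vale.Agent.P280Z
open Vale.Agent.P277Z.Slc (dd)
open Vale.Agent.P277.HD (pull)
open Vale.Agent.P280Z.Ld (h0 Va)
open Vale.Agent.P280Z.Gm (Fa)
open Vale.Agent.P280Z.Rh Vale.Agent.P280Z.Pr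

noncomputable section

namespace Vale.Agent.P280X.G7

/-! ### the flag manifold of dimension seven -/

/-- one half of the data -/
structure Hf7 (T : CT) {V : Mf 7} {Y : Mf 4} {π : V.X → Y.X} (h : Sub 7 4 π) (w : T.H Y)
    (x : T.H V) : Prop where
  conn : ConnectedSpace Y.X
  fib : ∀ b, IsConnected (π ⁻¹' {b})
  kc : T.Kc Y w
  can : T.c1 Y (Bd.can 4 Y.X) = (-5 : ℝ) • w
  int : ∀ L, IsLB 4 L → ∃ a : ℤ, T.c1 Y L = (a : ℝ) • w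
  vol : T.push π (x ^ 3) = 1
  neg : ∀ M, IsLB 7 M → ∀ a b : ℝ, a < 0 → T.c1 V M = a • x + b • T.pull h.hol w → h0 7 M = 0

/-- two fibrations with fibres of dimension three on a manifold of dimension seven -/
structure T7 (T : CT) {V : Mf 7} {Y Y' : Mf 4} {π : V.X → Y.X} {π' : V.X → Y'.X} (h : Sub 7 4 π)
    (h' : Sub 7 4 π') (w : T.H Y) (w' : T.H Y') : Prop where
  th : Th T
  conn : ConnectedSpace V.X
  l : Hf7 T h w (T.pull h'.hol w')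
  r : Hf7 T h' w' (T.pull h.hol w)
  can : T.c1 V (Bd.can 7 V.X) = (-4 : ℝ) • (T.pull h.hol w + T.pull h'.hol w')
  kc : ∀ a b : ℝ, 0 < a → 0 < b → T.Kc V (a • T.pull h.hol w + b • T.pull h'.hol w')
  eq : T.int Y (w ^ 4) = T.int Y' (w' ^ 4)

theorem T7.symm {T : CT} {V : Mf 7} {Y Y' : Mf 4} {π : V.X → Y.X} {π' : V.X → Y'.X}
    {h : Sub 7 4 π} {h' : Sub 7 4 π'} {w : T.H Y} {w' : T.H Y'} (k : T7 T h h' w w') :
    T7 T h' h w' w :=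
  ⟨k.th, k.conn, k.r, k.l, by rw [k.can, add_comm],
    fun a b ha hb => by rw [add_comm]; exact k.kc b a hb ha, k.eq.symm⟩

/-- a statement for all such data -/
def For7 (P : ∀ (T : CT) {V : Mf 7} {Y Y' : Mf 4} {π : V.X → Y.X} {π' : V.X → Y'.X},
    Sub 7 4 π → Sub 7 4 π' → T.H Y → T.H Y' → Prop) : Prop :=
  ∀ (T : CT) {V : Mf 7} {Y Y' : Mf 4} {π : V.X → Y.X} {π' : V.X → Y'.X} (h : Sub 7 4 π)
    (h' : Sub 7 4 π') (w : T.H Y) (w' : T.H Y'), T7 T h h' w w' → P T h h' w w'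

/-- row HILB7 -/
def HILB7 : Prop := For7 fun T V Y _ _ _ h h' w w' => T.int Y (w ^ 4) = 1 ∧
  T.RR V (T.pull h.hol w + T.pull h'.hol w') = 24

/-- row LB7 -/
def LB7 : Prop := For7 fun T _ Y _ _ _ _ _ w _ => T.int Y (w ^ 4) = 1 →
  ∃ (L : Bd Y.X) (s : Fin 5 → L.ι → Y.X → ℂ), T.c1 Y L = w ∧ Va 4 L s

/-- the bilinear relation `m` holds on `V` -/
def Rl7 {V : Mf 7} {Y Y' : Mf 4} (π : V.X → Y.X) (π' : V.X → Y'.X) {L : Bd Y.X} {L' : Bd Y'.X}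
    (s : Fin 5 → L.ι → Y.X → ℂ) (s' : Fin 5 → L'.ι → Y'.X → ℂ) (m : Matrix (Fin 5) (Fin 5) ℂ) :
    Prop :=
  ∀ z a a', π z ∈ L.U a → π' z ∈ L'.U a' →
    (fun i => s i a (π z)) ⬝ᵥ m *ᵥ (fun j => s' j a' (π' z)) = 0

/-- row REL7 -/
def REL7 : Prop := For7 fun T V Y Y' π π' h h' w w' =>
  T.RR V (T.pull h.hol w + T.pull h'.hol w') = 24 → ∀ (L : Bd Y.X) (L' : Bd Y'.X) s s',
    T.c1 Y L = w → T.c1 Y' L' = w' → Va 4 L s → Va 4 L' s' → ∃ m, m ≠ 0 ∧ Rl7 π π' s s' m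

/-- row INV7 -/
def INV7 : Prop := For7 fun T _ Y Y' π π' _ _ w w' => ∀ (L : Bd Y.X) (L' : Bd Y'.X) s s' m,
  T.c1 Y L = w → T.c1 Y' L' = w' → Va 4 L s → Va 4 L' s' → m ≠ 0 → Rl7 π π' s s' m → m.det ≠ 0

/-- row SEP7 -/
def SEP7 : Prop := For7 fun T _ _ Y' π π' _ _ _ w' => ∀ (L' : Bd Y'.X)
  (s' : Fin 5 → L'.ι → Y'.X → ℂ), T.c1 Y' L' = w' → Va 4 L' s' → Sep π π'

/-- row FIN7 -/
def FIN7 : Prop := ∀ {V : Mf 7} {Y Y' : Mf 4} (π : V.X → Y.X) (π' : V.X → Y'.X) (L : Bd Y.X)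
  (L' : Bd Y'.X) s s' m, HolM 7 4 π → HolM 7 4 π' → Va 4 L s → Va 4 L' s' → Sep π π' →
  m.det ≠ 0 → Rl7 π π' s s' m → Gp.Gen 7 V.X

/-- the output for the flag manifold -/
def GEN7 : Prop := For7 fun _ V _ _ _ _ _ _ _ _ => Gp.Gen 7 V.X

theorem gen7_of (h1 : HILB7) (h2 : LB7) (h3 : REL7) (h4 : INV7) (h5 : SEP7) (h6 : FIN7) : GEN7 := by
  intro T V Y Y' π π' h h' w w' k
  obtain ⟨a1, a2⟩ := h1 T h h' w w' k
  obtain ⟨L, s, b1, b2⟩ := h2 T h h' w w' k a1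
  obtain ⟨L', s', c1, c2⟩ := h2 T h' h w' w k.symm (k.eq ▸ a1)
  obtain ⟨m, d1, d2⟩ := h3 T h h' w w' k a2 L L' s s' b1 c1 b2 c2
  exact h6 π π' L L' s s' m h.hol h'.hol b2 c2 (h5 T h h' w w' k L' s' c1 c2)
    (h4 T h h' w w' k L L' s s' m b1 c1 b2 c2 d1 d2) d2

/-- case `(3, 3; 7)` -/
def K337 : Prop := ∀ (T : CT) (V : Mf 7) (B : Bas T V) i j, Two B i j → (B.Q {i}).d = 3 →
  (B.Q {j}).d = 3 → Gp.Gen 7 V.X

end Vale.Agent.P280X.G7
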