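import Vale.Agent.P280X.G7.Defs

/-!
# P280X, block G7: two more rows
-/

open scoped Manifold ContDiff Topology Matrix
open Set Filter
open Vale.Agent.P272.K Vale.Agent.P285.H281.FD Vale.Agent.P281Z Vale.Agent.P280Z
open Vale.Agent.P280Z.Gm (Fa)
open Vale.Agent.P280Z.Rh Vale.Agent.P280Z.Pr

noncomputable section

namespace Vale.Agent.P280X.G7

/-- row GRR47 -/
def GRR47 : Prop := ∀ T : CT, Th T → ∀ {V : Mf 7} {Y : Mf 4} {π : V.X → Y.X} (h : Sub 7 4 π),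
  Fa T V → Fa T Y → (∀ b, IsConnected (π ⁻¹' {b})) →
  T.int V (td4 (tr T h.hol) * T.pull h.hol (T.ps Y (VB.tan 4 Y.X) 1 ^ 3)) = 0

/-- row V3X: the degree of a fibre of dimension three and index four -/
def V3X : Prop := ∀ T : CT, Th T → ∀ {n y : ℕ} {V : Mf n} {Y : Mf y} {π : V.X → Y.X}
  (h : Sub n y π) (x : T.H V) (w : T.H Y) (M : Bd V.X) (a b c : ℝ), n = y + 3 → Fa T V →
  ConnectedSpace Y.X → (∀ b, IsConnected (π ⁻¹' {b})) → T.Dg Y 1 w →
  T.ps V (VB.tan n V.X) 1 = (4 : ℝ) • x + a • T.pull h.hol w → IsLB n M →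
  T.c1 V M = -x + b • T.pull h.hol w → T.push π (x ^ 3) = algebraMap ℝ _ c → c = 1

end Vale.Agent.P280X.G7
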