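import Vale.Agent.P280X.G7.Defs
import Vale.Agent.P280Z.En.Fld

/-!
# P280X, block G7: vector fields on the flag manifold of dimension seven
-/

open scoped Manifold ContDiff Topology Matrix
open Set Filter
open Vale.Agent.P272.K Vale.Agent.P285.H281.FD Vale.Agent.P281Z Vale.Agent.P280Z
open Vale.Agent.P280Z.Rh Vale.Agent.P280Z.Pr
open Vale.Agent.P277Z (Hol at_chart)
open Vale.Agent.P277Z.Slc (dd)
open Vale.Agent.P280Z.Ld (Va Bs)
open Vale.Agent.P280Z.En.Fld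
open Module (finrank)

noncomputable section

namespace Vale.Agent.P280X.G7

namespace F17

theorem ex_one {φ : Fin 5 → ℂ} (h : φ ≠ 0) : ∃ σ : Fin 5 → ℂ, σ ⬝ᵥ φ = 1 := by
  obtain ⟨i, hi⟩ := Function.ne_iff.1 h
  exact ⟨Pi.single i (φ i)⁻¹, by rw [single_dotProduct, inv_mul_cancel₀ hi]⟩

theorem ex_mat {m : Matrix (Fin 5) (Fin 5) ℂ} (hm : m.det ≠ 0) {φ ψ φ' ψ' : Fin 5 → ℂ}
    (h : φ ≠ 0) (h' : m *ᵥ ψ ≠ 0) (k : φ' ⬝ᵥ m *ᵥ ψ + φ ⬝ᵥ m *ᵥ ψ' = 0) :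
    ∃ A A' : Matrix (Fin 5) (Fin 5) ℂ, A *ᵥ φ = φ' ∧ A' *ᵥ ψ = ψ' ∧
      ∀ u w, (A *ᵥ u) ⬝ᵥ m *ᵥ w + u ⬝ᵥ m *ᵥ (A' *ᵥ w) = 0 := by
  obtain ⟨σ, hσ⟩ := ex_one h
  obtain ⟨ρ, hρ⟩ := ex_one h'
  obtain ⟨A, a1, a2⟩ : ∃ A : Matrix (Fin 5) (Fin 5) ℂ, A *ᵥ φ = φ' ∧
      Aᵀ *ᵥ (m *ᵥ ψ) = -(m *ᵥ ψ') := by
    refine ⟨Matrix.vecMulVec φ' σ - Matrix.vecMulVec ρ (m *ᵥ ψ') +
      (φ ⬝ᵥ m *ᵥ ψ') • Matrix.vecMulVec ρ σ, ?_, ?_⟩
    · simp only [Matrix.add_mulVec, Matrix.sub_mulVec, Matrix.smul_mulVec,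
        Matrix.vecMulVec_mulVec, hσ, dotProduct_comm (m *ᵥ ψ') φ]
      funext i
      simp [mul_comm]
    · simp only [Matrix.transpose_add, Matrix.transpose_sub, Matrix.transpose_smul,
        Matrix.transpose_vecMulVec, Matrix.add_mulVec, Matrix.sub_mulVec, Matrix.smul_mulVec,
        Matrix.vecMulVec_mulVec, hρ, eq_neg_of_add_eq_zero_left k]
      funext i
      simp [mul_comm]
      ring
  have hu : IsUnit m.det := isUnit_iff_ne_zero.2 hm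
  refine ⟨A, -(m⁻¹ * Aᵀ * m), a1, ?_, fun u w => ?_⟩
  · rw [Matrix.neg_mulVec, ← Matrix.mulVec_mulVec, ← Matrix.mulVec_mulVec, a2, Matrix.mulVec_neg,
      neg_neg, Matrix.mulVec_mulVec, Matrix.nonsing_inv_mul _ hu, Matrix.one_mulVec]
  · rw [Matrix.neg_mulVec, Matrix.mulVec_neg, Matrix.mulVec_mulVec, ← mul_assoc, ← mul_assoc,
      Matrix.mul_nonsing_inv _ hu, one_mul, ← Matrix.mulVec_mulVec, dotProduct_neg,
      Matrix.dotProduct_mulVec u, Matrix.vecMul_transpose, add_neg_cancel]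

theorem key {φ τ : Fin 5 → ℂ} (D E : Cm 4 →ₗ[ℂ] Fin 5 → ℂ) (p p' : Cm 7 →ₗ[ℂ] Cm 4) (h : τ ≠ 0)
    (h0 : φ ⬝ᵥ τ = 0) (hs : ∀ u, ∃ (c : ℂ) (v : Cm 4), u = c • φ + D v)
    (hi : ∀ w, p w = 0 → p' w = 0 → w = 0) (hr : ∀ w, D (p w) ⬝ᵥ τ + φ ⬝ᵥ E (p' w) = 0)
    (α γ : Cm 4) (k : D α ⬝ᵥ τ + φ ⬝ᵥ E γ = 0) : ∃ w, α = p w ∧ γ = p' w := by
  let l : (Cm 4 × Cm 4) →ₗ[ℂ] ℂ :=
    { toFun := fun q => D q.1 ⬝ᵥ τ + φ ⬝ᵥ E q.2
      map_add' := fun q q' => by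
        simp only [Prod.fst_add, Prod.snd_add, map_add, add_dotProduct, dotProduct_add]
        ring
      map_smul' := fun c q => by
        simp only [Prod.smul_fst, Prod.smul_snd, map_smul, smul_dotProduct, dotProduct_smul,
          smul_eq_mul, RingHom.id_apply, mul_add] }
  have h1 : LinearMap.ker l ≠ ⊤ := fun e => by
    obtain ⟨σ, hσ⟩ := ex_one h
    obtain ⟨c, v, rfl⟩ := hs σ
    have k1 : D v ⬝ᵥ τ + φ ⬝ᵥ E 0 = 0 := (e ▸ Submodule.mem_top : (v, 0) ∈ LinearMap.ker l)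
    rw [map_zero, dotProduct_zero, add_zero] at k1
    rw [add_dotProduct, smul_dotProduct, h0, k1, smul_zero, add_zero] at hσ
    exact zero_ne_one hσ
  have h2 : finrank ℂ (LinearMap.range (p.prod p')) = 7 := by
    rw [LinearMap.finrank_range_of_inj ((injective_iff_map_eq_zero _).2 fun w e =>
      hi w (congrArg Prod.fst e) (congrArg Prod.snd e))]
    simp
  have h3 := Submodule.finrank_lt h1
  have h4 : finrank ℂ (Cm 4 × Cm 4) = 8 := by simp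
  have h5 : LinearMap.range (p.prod p') = LinearMap.ker l :=
    Submodule.eq_of_le_of_finrank_le (by rintro _ ⟨w, rfl⟩; exact hr w) (by omega)
  obtain ⟨w, hw⟩ : (α, γ) ∈ LinearMap.range (p.prod p') := h5 ▸ k
  exact ⟨w, (congrArg Prod.fst hw).symm, (congrArg Prod.snd hw).symm⟩

theorem dd_rel {n : ℕ} {V : Mf n} {f g : Fin 5 → V.X → ℂ} {x : V.X} {e : Chart n V.X}
    {m : Matrix (Fin 5) (Fin 5) ℂ} (hf : ∀ i, Hol n (f i) x) (hg : ∀ j, Hol n (g j) x)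
    (h : ∀ᶠ y in 𝓝 x, (fun i => f i y) ⬝ᵥ m *ᵥ (fun j => g j y) = 0) (he : At e x) (v : Cm n) :
    (fun i => dd (f i) e x v) ⬝ᵥ m *ᵥ (fun j => g j x) +
      (fun i => f i x) ⬝ᵥ m *ᵥ (fun j => dd (g j) e x v) = 0 := by
  have k := HasFDerivAt.fun_sum (u := Finset.univ) fun i _ =>
    (hf i e he).differentiableAt.hasFDerivAt.fun_mul (HasFDerivAt.fun_sum (u := Finset.univ)
      fun j _ => (hg j e he).differentiableAt.hasFDerivAt.const_mul (m i j))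
  have k0 := congrArg (· v) (k.unique
    ((hasFDerivAt_const (0 : ℂ) (e x)).congr_of_eventuallyEq (at_ev he h)))
  simp only [ContinuousLinearMap.sum_apply, ContinuousLinearMap.add_apply,
    ContinuousLinearMap.smul_apply, smul_eq_mul, e.left_inv he.2, Finset.sum_add_distrib,
    ContinuousLinearMap.zero_apply] at k0
  rw [← k0, add_comm]
  simp only [dotProduct, Matrix.mulVec, dd, mul_comm]

variable {Y : Mf 4} {L : Bd Y.X} {s : Fin 5 → L.ι → Y.X → ℂ} {a : L.ι} {y : Y.X}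
  {e : Chart 4 Y.X}

theorem surj (h : Va 4 L s) (ha : y ∈ L.U a) (he : At e y) (u : Fin 5 → ℂ) :
    ∃ (c : ℂ) (v : Cm 4), u = fun j => c * s j a y + dd (s j a) e y v := by
  obtain ⟨⟨c, v⟩, k⟩ := (LinearMap.injective_iff_surjective_of_finrank_eq_finrank
    (f := (Pz (Fz s a e) (e y)).toLinearMap) (by simp)).1 (Pz_inj h ha he) u
  exact ⟨c, v, k.symm.trans (Pz_eq h ha he c v)⟩

theorem ne0 (h : Va 4 L s) (ha : y ∈ L.U a) : (fun j => s j a y) ≠ 0 := fun k => by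
  obtain ⟨l, hl⟩ : ∃ l, NZ L (s l) y := by
    by_contra k
    exact (h.bpf ▸ (not_exists.1 k : y ∈ Bs L s) : y ∈ (∅ : Set Y.X))
  exact hl a ha (congrFun k l)

variable (s a y) in
/-- the derivatives of the sections in the preferred chart -/
def Dv : Cm 4 →ₗ[ℂ] Fin 5 → ℂ :=
  LinearMap.pi fun j => (dd (s j a) (chartAt (Cm 4) y) y).toLinearMap

theorem dv_comp {V : Mf 7} {π : V.X → Y.X} {z : V.X} (hπ : HolM 7 4 π) (h : Va 4 L s)
    (ha : π z ∈ L.U a) (w : Cm 7) :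
    (fun i => dd (fun x => s i a (π x)) (chartAt (Cm 7) z) z w) = Dv s a (π z) (Df 7 4 π z w) :=
  funext fun i => congrArg (· w)
    (dd_comp (sec_hol (h.sec i).1 ha) (hπ.at z) (at_chart z) (at_chart (π z)))

end F17

open F17

theorem fin17_of (hL : LIFT) : FIN7 := by
  intro V Y Y' π π' L L' s s' m hπ hπ' h h' hs hm hr
  have rel : ∀ z a a', π z ∈ L.U a → π' z ∈ L'.U a' → ∀ w,
      Dv s a (π z) (Df 7 4 π z w) ⬝ᵥ m *ᵥ (fun j => s' j a' (π' z)) +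
        (fun i => s i a (π z)) ⬝ᵥ m *ᵥ Dv s' a' (π' z) (Df 7 4 π' z w) = 0 := by
    intro z a a' ha ha' w
    rw [← dv_comp hπ h ha, ← dv_comp hπ' h' ha']
    refine dd_rel (fun i => hπ.hol (sec_hol (h.sec i).1 ha))
      (fun i => hπ'.hol (sec_hol (h'.sec i).1 ha')) ?_ (at_chart z) w
    filter_upwards [hπ.cont.continuousAt.eventually (lb_near h.lb ha),
      hπ'.cont.continuousAt.eventually (lb_near h'.lb ha')] with y k k' using hr y a a' k k'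
  have nz : ∀ y a', y ∈ L'.U a' → m *ᵥ (fun j => s' j a' y) ≠ 0 := fun y a' ha' k =>
    ne0 h' ha' (Matrix.eq_zero_of_mulVec_eq_zero hm k)
  refine hL π π' hπ hπ' hs fun x v => ?_
  obtain ⟨a, ha⟩ := h.lb.cover (π x)
  obtain ⟨a', ha'⟩ := h'.lb.cover (π' x)
  obtain ⟨A, A', k1, k2, k3⟩ := ex_mat hm (ne0 h ha) (nz _ _ ha') (rel x a a' ha ha' v)
  obtain ⟨ξ, f1, f2⟩ := En.fld Y L _ s A.mulVecLin h fun a x e ha he => surj h ha he _
  obtain ⟨ζ, g1, g2⟩ := En.fld Y' L' _ s' A'.mulVecLin h' fun a x e ha he => surj h' ha he _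
  refine ⟨ξ, ζ, f1, g1, R.uniq h ha (at_chart _) (f2 a _ _ ha (at_chart _))
    ⟨0, k1.trans (funext fun j => by rw [zero_mul, zero_add]; rfl)⟩,
    R.uniq h' ha' (at_chart _) (g2 a' _ _ ha' (at_chart _))
    ⟨0, k2.trans (funext fun j => by rw [zero_mul, zero_add]; rfl)⟩, fun z => ?_⟩
  obtain ⟨b, hb⟩ := h.lb.cover (π z)
  obtain ⟨b', hb'⟩ := h'.lb.cover (π' z)
  obtain ⟨c, k⟩ := f2 b _ _ hb (at_chart _)
  obtain ⟨c', k'⟩ := g2 b' _ _ hb' (at_chart _)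
  have e1 : A *ᵥ (fun j => s j b (π z)) = c • (fun j => s j b (π z)) +
      Dv s b (π z) (val ξ (π z)) := k
  have e2 : A' *ᵥ (fun j => s' j b' (π' z)) = c' • (fun j => s' j b' (π' z)) +
      Dv s' b' (π' z) (val ζ (π' z)) := k'
  have e0 := hr z b b' hb hb'
  have e3 := k3 (fun j => s j b (π z)) fun j => s' j b' (π' z)
  rw [e1, e2, add_dotProduct, smul_dotProduct, Matrix.mulVec_add, Matrix.mulVec_smul,
    dotProduct_add, dotProduct_smul, e0, smul_zero, smul_zero, zero_add, zero_add] at e3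
  exact key (Dv s b (π z)) (m.mulVecLin ∘ₗ Dv s' b' (π' z)) _ _ (nz _ _ hb') e0
    (surj h hb (at_chart _)) (hs z) (rel z b b' hb hb') _ _ e3

end Vale.Agent.P280X.G7
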