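import Vale.Agent.P280Z.Pr.Defs
import Vale.Agent.P280Z.Rh.Api
import Vale.Agent.P280Z.Hr.Tdx

/-!
# P280X, block G7: a relation for the fourth relative Todd class over a fourfold
-/

open scoped Manifold ContDiff Topology Matrix
open Set Filter
open Vale.Agent.P272.K Vale.Agent.P285.H281.FD Vale.Agent.P281Z Vale.Agent.P280Z
open Vale.Agent.P277.HD (pull)
open Vale.Agent.P277 (Bd.inv)
open Vale.Agent.P280Z.Rh Vale.Agent.P280Z.Ma Vale.Agent.P280Z.Pr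
open Vale.Agent.P280Z.Hr (tdx coeff_td)
open Vale.Agent.P280Z.Gm (Fa)

noncomputable section

namespace Vale.Agent.P280X.G7

namespace G66

variable {B : Type} [CommRing B] [Algebra ℝ B]

theorem tay {x : B} (h : x ^ 5 = 0) (s : ℝ) (z a b c e : B) :
    tdx (s • x + z) a b c e 7 = tdx z a b c e 7 + s • (x * tdx z a b c e 6) +
      (s ^ 2 / 2) • (x ^ 2 * tdx z a b c e 5) + (s ^ 3 / 6) • (x ^ 3 * tdx z a b c e 4) +
      (s ^ 4 / 24) • (x ^ 4 * tdx z a b c e 3) := by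
  have k : tdx (s • x + z) a b c e 7 = tdx z a b c e 7 + s • (x * tdx z a b c e 6) +
      (s ^ 2 / 2) • (x ^ 2 * tdx z a b c e 5) + (s ^ 3 / 6) • (x ^ 3 * tdx z a b c e 4) +
      (s ^ 4 / 24) • (x ^ 4 * tdx z a b c e 3) +
      x ^ 5 * ((s ^ 5 / 120) • tdx z a b c e 2 + (s ^ 6 / 720) • (x * z) +
        (s ^ 7 / 5040) • x ^ 2) := by
    simp only [tdx]
    algebra
  rw [k, h, zero_mul, add_zero]

theorem four {x q r : B} (h : x * q = 0) (h' : x * r = 0) (t : ℕ → B) (c e : B) :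
    x * tdx ((1 / 2 : ℝ) • t 1) (-(1 / 24 : ℝ) • (t 2 + q)) ((1 / 2880 : ℝ) • (t 4 + r)) c e 4 =
      (1 / 5760 : ℝ) • (td4 t * x) := by
  have k : x * tdx ((1 / 2 : ℝ) • t 1) (-(1 / 24 : ℝ) • (t 2 + q))
      ((1 / 2880 : ℝ) • (t 4 + r)) c e 4 =
      (1 / 5760 : ℝ) • (td4 t * x) + x * q * (-(1 / 192 : ℝ) • t 1 ^ 2 +
        (1 / 576 : ℝ) • t 2 + (1 / 1152 : ℝ) • q) + (1 / 2880 : ℝ) • (x * r) := by
    simp only [tdx, td4]
    algebra
  rw [k, h, h', zero_mul, add_zero, smul_zero, add_zero]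

theorem base (s : ℝ) (x a b c e : B) : tdx (s • x) a b c e 4 =
    ((1 / 2 : ℝ) • a ^ 2 + b) + (s ^ 2 / 2) • (x ^ 2 * a) + (s ^ 4 / 24) • x ^ 4 := by
  simp only [tdx]
  algebra

end G66

open G66 in
theorem grr66_of (hH : H0P) : ∀ T : CT, Th T → ∀ {V : Mf 7} {Y : Mf 4} {π : V.X → Y.X}
    (h : Sub 7 4 π), Fa T V → Fa T Y → (∀ b, IsConnected (π ⁻¹' {b})) →
    T.int V (td4 (tr T h.hol) * T.pull h.hol (T.ps Y (VB.tan 4 Y.X) 1 ^ 3)) = 0 := by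
  intro T th V Y π h fV fY hc
  have hT := th.ok
  have kY : T.Kc Y (cX T Y) := by rw [cX, hT.ch.tan]; exact fY
  have kV : T.Kc V (cX T V) := by rw [cX, hT.ch.tan]; exact fV
  have big : ∀ k a, 4 < k → T.Dg Y k a → T.pull h.hol a = 0 := fun k a hk ha => by
    rw [← ha, hT.rg.pr_zero _ _ _ hk, map_zero]
  have x4 : T.pull h.hol (cX T Y) ^ 5 = 0 := by
    rw [← map_pow]
    exact big 5 _ (by norm_num) (dg_pow hT (dg_cX hT Y) 5)
  have q2 : ∀ j, 1 < j →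
      T.pull h.hol (cX T Y) ^ 3 * T.pull h.hol (T.ps Y (VB.tan 4 Y.X) j) = 0 := fun j hj => by
    rw [← map_pow, ← map_mul]
    exact big (3 + j) _ (by omega)
      (hT.rg.dg_mul _ _ _ _ _ (dg_pow hT (dg_cX hT Y) 3) (hT.ch.deg _ _ j))
  have p2 : ∀ j, T.ps V (VB.tan 7 V.X) j =
      tr T h.hol j + T.pull h.hol (T.ps Y (VB.tan 4 Y.X) j) := fun j => (sub_add_cancel _ _).symm
  have rr : ∀ k : ℕ, T.RR V ((k : ℝ) • T.pull h.hol (cX T Y)) = T.RR Y ((k : ℝ) • cX T Y) := by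
    intro k
    have l1 := lb_pow (lb_inv (lb_can Y)) k
    have c1 : T.c1 Y ((Bd.inv (Bd.can 4 Y.X)).pow k) = (k : ℝ) • cX T Y := by
      rw [hT.c1.pow Y _ k (lb_inv (lb_can Y)), c1_acan hT]
    have c2 : T.c1 V (pull π ((Bd.inv (Bd.can 4 Y.X)).pow k)) =
        (k : ℝ) • T.pull h.hol (cX T Y) := by
      rw [hT.c1.pull h.hol _ l1, c1, map_smul]
    have n1 := nn_smul hT (kc_nn hT kY) (Nat.cast_nonneg k)
    rw [← c1, ← c2, ← th.hrr V _ (h.hol.lb l1), ← th.hrr Y _ l1, hH π _ h hc l1]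
    · rw [Ld.Ap, c1, sub_eq_neg_add]
      exact kc_add hT fY n1
    · rw [Ld.Ap, c2, sub_eq_neg_add, ← map_smul]
      exact kc_add hT fV (nn_pull hT h.hol n1)
  obtain ⟨A0, A1, A2, A4, B0, B2, B4, e⟩ : ∃ A0 A1 A2 A4 B0 B2 B4 : ℝ, ∀ k : ℕ,
      A0 + (k + 1 / 2) * A1 + (k + 1 / 2) ^ 2 / 2 * A2 + (k + 1 / 2) ^ 3 / 6 * (1 / 5760 *
        T.int V (td4 (tr T h.hol) * T.pull h.hol (cX T Y) ^ 3)) + (k + 1 / 2) ^ 4 / 24 * A4 =
      B0 + (k + 1 / 2) ^ 2 / 2 * B2 + (k + 1 / 2) ^ 4 / 24 * B4 :=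
    ⟨_, _, _, _, _, _, _, fun k => by
    have e1 : (k : ℝ) • T.pull h.hol (cX T Y) + (1 / 2 : ℝ) • T.ps V (VB.tan 7 V.X) 1 =
        ((k : ℝ) + 1 / 2) • T.pull h.hol (cX T Y) + (1 / 2 : ℝ) • tr T h.hol 1 := by
      rw [tr, smul_sub, add_smul]
      abel
    have e2 := rr k
    rw [CT.RR, CT.RR, coeff_td _ _ (by norm_num), coeff_td _ _ (by norm_num), e1, ← add_smul,
      base, tay x4, p2 2, p2 4, four (q2 2 (by norm_num)) (q2 4 (by norm_num)), map_add, map_add,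
      map_add, map_add, map_add (T.int Y), map_add (T.int Y)] at e2
    simpa only [map_smul, smul_eq_mul] using e2⟩
  have e0 := e 0
  have e1 := e 1
  have e2 := e 2
  have e3 := e 3
  have e4 := e 4
  rw [map_pow]
  push_cast at e0 e1 e2 e3 e4
  linarith

end Vale.Agent.P280X.G7
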