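import Vale.Agent.P280X.G7.Defs2
import Vale.Agent.P280Z.Pr.K225
import Vale.Agent.P280Z.Pr.K336

/-!
# P280X, block G7: two families with fibres of dimension three on a manifold of dimension seven
-/

open scoped Manifold ContDiff Topology Matrix
open Set Filter
open Vale.Agent.P272.K Vale.Agent.P285.H281.FD Vale.Agent.P281Z Vale.Agent.P280Z
open Vale.Agent.P280Z.Ma
open Vale.Agent.P277 (Bd.inv)
open Vale.Agent.P277.HD (pull)
open Vale.Agent.P280Z.Rh Vale.Agent.P280Z.Pr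

noncomputable section

namespace Vale.Agent.P280X.G7

namespace K7

open K5

theorem td_zero {T : CT} (g : GRR47) (hT : Th T) {y : ℕ} (hy : y = 4) {V : Mf 7} {Y : Mf y}
    {π : V.X → Y.X} (h : Sub 7 y π) (hV : Fano 7 V.X) (hY : Fano y Y.X)
    (hs : Function.Surjective π) (hc : ∀ b, IsConnected (π ⁻¹' {b}))
    (ht : ∀ k, T.Dg V k (tr T h.hol k)) {H : T.H V}
    (one : ∀ a, T.Dg Y 1 a → ∃ s : ℝ, T.pull h.hol a = s • H) (b : T.H Y) :
    T.int V (td4 (tr T h.hol) * T.pull h.hol b) = 0 := by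
  subst hy
  obtain ⟨cY, kY⟩ := (fano_iff hT.ok Y).1 hY
  have kV : V.Kah := (hT.ok.po.kah V).2 ⟨_, ((fano_iff hT.ok V).1 hV).2⟩
  have vol := Ma.kc_vol hT.ok kY (Classical.arbitrary _)
  have k0 := g T hT h (fa_of hT.ok hV) (fa_of hT.ok hY) hc
  have dP : T.Dg Y 1 (T.push π (td4 (tr T h.hol))) := by
    rw [CT.Dg, hT.ok.pu.deg h 3 rfl, K336H.dg_td hT.ok ht]
  have pr : ∀ b, T.int V (td4 (tr T h.hol) * T.pull h.hol b) =
      T.int Y (T.push π (td4 (tr T h.hol)) * b) := fun b => by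
    rw [← hT.ok.pu.proj h, hT.ok.pu.int h]
  rw [pr] at k0 ⊢
  generalize T.push π (td4 (tr T h.hol)) = P at k0 dP ⊢
  obtain ⟨s, e1⟩ := one P dP
  obtain ⟨c, e2⟩ := one _ (dg_cX hT.ok Y)
  have c0 : c ≠ 0 := fun e => by
    rw [pull_inj hT.ok h (d := 3) rfl hs cY kV (b := cX T Y) (by rw [e2, e, zero_smul])] at vol
    simp at vol
  have e3 : P = (s / c) • cX T Y := sub_eq_zero.1 (pull_inj hT.ok h (d := 3) rfl hs cY kV (by
    rw [map_sub, map_smul, e1, e2, smul_smul, div_mul_cancel₀ _ c0, sub_self]))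
  rw [e3, smul_mul_assoc, ← pow_succ', map_smul, smul_eq_mul] at k0
  rw [e3, (mul_eq_zero.1 k0).resolve_right vol.ne', zero_smul, zero_mul, map_zero]

theorem cm0 (fax : FAX) (rd : RD) (cm3 : CM3) (cmq : CMQ) (g : GRR47) {T : CT} {V : Mf 7}
    {B : Bas T V} {i j : B.J} (h : Two B i j) (dj : (B.Q {j}).d = 3) :
    Cm0 (nsm (B.F j)) (B.Q {j}).d (B.Q {j}).y (tr T (B.Q {j}).sub.hol) := by
  have hT := h.th.ok
  have cV := ((fano_iff hT V).1 h.cls.1).1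
  have fa := fax T hT B.F j (B.Q {j}) cV
  have yj : (B.Q {j}).y = 4 := by have := (B.Q {j}).dim; omega
  have hm : (B.F j).m = 1 ∨ (B.F j).m = 2 := by
    have h1 := rd _ _ _ _ _ _ fa
    have h2 := h.pos j
    omega
  refine K336H.cm_cast ?_ dj
  rcases hm with hm | hm
  · intro k z hk hz
    refine cmq _ _ _ _ (K336H.fa_cast fa hm dj rfl) k z hk hz ?_
    obtain ⟨b, rfl⟩ := ((B.Q {j}).s4 z).1 (by rintro _ rfl; exact hz.2)
    refine td_zero g h.th yj (B.Q {j}).sub h.cls.1 (B.cls {j}).1 (B.Q {j}).onto (B.Q {j}).fib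
      fa.dt (H := B.H i)
      (fun a ha => ⟨(B.F i).dg (T.pull (B.Q {j}).sub.hol a), ?_⟩) b
    have e := K336H.span h (Ma.dg_pull hT (B.Q {j}).sub.hol ha)
    rwa [(B.Q {j}).dg_pull hT rfl ha, zero_smul, add_zero] at e
  · exact cm3 _ _ _ _ (K336H.fa_cast fa hm dj rfl)

theorem cX_eq {T : CT} {n : ℕ} {V : Mf n} {B : Bas T V} {i j : B.J} (h : Two B i j) :
    cX T V = (((B.F i).m : ℝ) + 2) • B.H i + (((B.F j).m : ℝ) + 2) • B.H j := by
  rw [span2 h (dg_cX h.th.ok V), (B.F i).c1, (B.F j).c1]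

theorem half (h6 : NEG) (h8 : V3X) {T : CT} {V : Mf 7} {B : Bas T V} {i j : B.J} (h : Two B i j)
    (Q : Qt B.F {j}) (hd : Q.d = 3)
    (f2 : Cm0 (nsm (B.F j)) Q.d Q.y (tr T Q.sub.hol))
    {w : T.H Q.Y} (f4 : T.Kc Q.Y w) (f5 : B.H i = T.pull Q.sub.hol w) :
    ∃ (Y : Mf 4) (π : V.X → Y.X) (s : Sub 7 4 π) (w : T.H Y) (b : ℤ), B.H i = T.pull s.hol w ∧
      (((B.F j).m : ℝ) + 2) * T.int V (B.H j ^ 4 * B.H i ^ 3) =
        4 * b * T.int V (B.H j ^ 3 * B.H i ^ 4) ∧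
      (b = 1 → (B.F i).m = 2 → (B.F j).m = 2 → T.c1 Y (Bd.can 4 Y.X) = (-5 : ℝ) • w ∧
        ((∃ M, IsLB 7 M ∧ T.c1 V M = -B.H j + (4 : ℝ) • B.H i) →
          Hf7 T s w (B.H j) ∧ T.int Y (w ^ 4) = T.int V (B.H j ^ 3 * B.H i ^ 4))) := by
  have hT := h.th.ok
  have g1 := Q.conn h.cls.1.1
  have g2 := fun b => Q.dg_pull hT (mem_singleton j) (b := b)
  have g3 := fun b => (Q.s4 _).2 ⟨b, rfl⟩ j (mem_singleton j)
  obtain ⟨y, d, Y, π, s, dim, onto, _, fib, _, _, _⟩ := Q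
  dsimp only at *
  subst hd
  obtain rfl : y = 4 := by omega
  have hV : V.Kah := (hT.po.kah V).2 ⟨_, (B.F j).kη⟩
  have dw : T.Dg Y 1 w := hT.po.deg f4
  have dx : T.Dg V 1 (B.H j) := hT.po.deg (B.nn j)
  have g4 : ∀ L, IsLB 4 L → ∃ a : ℤ, T.c1 Y L = (a : ℝ) • w := fun L hL => by
    obtain ⟨a, ha⟩ := (h6 T hT (B.F i) _ (s.hol.lb hL)).1
    rw [hT.c1.pull s.hol L hL] at ha
    refine ⟨a, sub_eq_zero.1 (pull_inj hT s dim onto g1 hV ?_)⟩
    rw [map_sub, map_smul, ← f5, span2 h (dg_pull hT _ (hT.c1.deg Y L)), ha,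
      g2 _ (hT.c1.deg Y L), zero_smul, add_zero, sub_self]
  obtain ⟨a, ha⟩ := g4 _ (lb_inv (lb_can Y))
  rw [c1_acan hT] at ha
  have g5 : tr T s.hol 1 = (((B.F j).m : ℝ) + 2) • B.H j -
      ((a - (B.F i).m - 2 : ℤ) : ℝ) • B.H i := by
    rw [tr, show T.ps V _ 1 = _ from cX_eq h, show T.ps Y _ 1 = _ from ha, map_smul, ← f5]
    push_cast
    module
  have g6 : B.H i ^ 5 = 0 := by
    rw [f5, ← map_pow, ← dg_pow hT dw 5, hT.rg.pr_zero _ _ _ (by norm_num), map_zero]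
  have g7 : T.int V (tr T s.hol 1 ^ 4 * B.H i ^ 3) = 0 :=
    f2 3 (B.H i ^ 3) rfl ⟨dg_pow hT (hT.po.deg (B.nn i)) 3, by
      rw [f5, ← map_pow]
      exact g3 _⟩
  refine ⟨Y, π, s, w, a - (B.F i).m - 2, f5, ?_, fun hb hi hj => ?_⟩
  · generalize ((a - (B.F i).m - 2 : ℤ) : ℝ) = b at g5 ⊢
    have r0 : 0 < ((B.F j).m : ℝ) + 2 := by positivity
    generalize ((B.F j).m : ℝ) + 2 = r at g5 r0 ⊢
    have e : tr T s.hol 1 ^ 4 * B.H i ^ 3 = (r ^ 4) • (B.H j ^ 4 * B.H i ^ 3) -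
        (4 * r ^ 3 * b) • (B.H j ^ 3 * B.H i ^ 4) := by
      rw [g5]
      simp only [Algebra.smul_def, map_mul, map_pow, map_ofNat]
      generalize algebraMap ℝ (T.H V) b = β
      generalize algebraMap ℝ (T.H V) r = ρ
      linear_combination (6 * ρ ^ 2 * β ^ 2 * B.H j ^ 2 - 4 * ρ * β ^ 3 * B.H j * B.H i +
        β ^ 4 * B.H i ^ 2) * g6
    rw [e, map_sub, map_smul, map_smul, smul_eq_mul, smul_eq_mul] at g7
    exact mul_left_cancel₀ (pow_pos r0 3).ne' (by linear_combination g7)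
  · have a5 : a = 5 := by omega
    have kc : T.c1 Y (Bd.can 4 Y.X) = (-5 : ℝ) • w := by
      rw [← neg_inj, ← hT.ch.tan, show T.ps Y _ 1 = _ from ha, a5]
      simp
    refine ⟨kc, fun ⟨M, hM, cM⟩ => ?_⟩
    have d0 : T.Dg Y 0 (T.push π (B.H j ^ 3)) := by
      rw [CT.Dg, hT.pu.deg s 3 dim, dg_pow hT dx 3]
    obtain ⟨c, hc⟩ := hT.rg.h0 Y g1.toPreconnectedSpace _ d0
    have g8 : T.push π (B.H j ^ 3) = 1 := by
      rw [hc, h8 T h.th s (B.H j) w M 4 4 c dim (fa_of hT h.cls.1) g1 fib dw (by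
        rw [show T.ps V _ 1 = _ from cX_eq h, hi, hj, ← f5, add_comm]
        norm_num) hM (by rw [cM, f5]) hc, map_one]
    refine ⟨⟨g1, fib, f4, kc, g4, g8, fun M hM c c' hc k => (h6 T hT (B.F j) M hM).2 ?_⟩, ?_⟩
    · rwa [k, map_add, map_smul, map_smul, g2 w dw, B.dual, if_pos rfl, smul_eq_mul, mul_one,
        smul_zero, add_zero]
    · rw [← hT.pu.int s, f5, ← map_pow, hT.pu.proj s, g8, one_mul]

end K7

open K5 K7 in
theorem k337_of (h1 : FAX) (h3 : RD) (cm3 : CM3) (cmq : CMQ) (g : GRR47) (h5 : POSJ) (h6 : NEG)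
    (h8 : V3X) (h7 : GEN7) : K337 := by
  intro T V B i j h di dj
  have hT := h.th.ok
  have hc : ConnectedSpace V.X := h.cls.1.1
  have hm : ∀ k, (B.Q {k}).d = 3 → (B.F k).m ≤ 2 := fun k hk => by
    have := h3 _ _ _ _ _ _ (h1 T hT B.F k (B.Q {k}) hc)
    omega
  have key : ∀ {i j}, Two B i j → (B.Q {j}).d = 3 →
      0 < T.int V (B.H j ^ 3 * B.H i ^ 4) ∧
      ∃ (Y : Mf 4) (π : V.X → Y.X) (s : Sub 7 4 π) (w : T.H Y) (b : ℤ), B.H i = T.pull s.hol w ∧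
      (((B.F j).m : ℝ) + 2) * T.int V (B.H j ^ 4 * B.H i ^ 3) =
        4 * b * T.int V (B.H j ^ 3 * B.H i ^ 4) ∧
      (b = 1 → (B.F i).m = 2 → (B.F j).m = 2 → T.c1 Y (Bd.can 4 Y.X) = (-5 : ℝ) • w ∧
        ((∃ M, IsLB 7 M ∧ T.c1 V M = -B.H j + (4 : ℝ) • B.H i) →
          Hf7 T s w (B.H j) ∧ T.int Y (w ^ 4) = T.int V (B.H j ^ 3 * B.H i ^ 4))) := by
    intro i j h dj
    obtain ⟨⟨w, k1, k2⟩, k3⟩ := h5 T hT B hc {j}
    have k4 : hS B {j}ᶜ = B.H i := by rw [compl h, hS_one]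
    have k5 := (B.Q {j}).dim
    rw [k4, hS_one, dj, show (B.Q {j}).y = 4 by omega] at k3
    exact ⟨k3, half h6 h8 h _ dj (cm0 h1 h3 cm3 cmq g h dj) k1 (k4 ▸ k2)⟩
  obtain ⟨p1, Y, π, s, w, b, p2, p3, p4⟩ := key h dj
  obtain ⟨q1, Y', π', s', w', b', q2, q3, q4⟩ := key (symm h) di
  rw [mul_comm (B.H i ^ 3)] at q1 q3 q4
  rw [mul_comm (B.H i ^ 4)] at q3
  have e1 : (((B.F i).m : ℤ) + 2) * ((B.F j).m + 2) = 16 * (b * b') := by
    have : (((((B.F i).m : ℤ) + 2) * ((B.F j).m + 2) : ℤ) : ℝ) = (16 * (b * b') : ℤ) :=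
      mul_right_cancel₀ p1.ne' (by
        push_cast
        linear_combination (((B.F j).m : ℝ) + 2) * q3 + 4 * (b' : ℝ) * p3)
    exact Int.cast_injective this
  have m1 := hm i di
  have m2 := hm j dj
  have m3 := h.pos i
  have m4 := h.pos j
  have e2 : 0 < b := by
    have : (0 : ℝ) < 4 * b * T.int V (B.H j ^ 3 * B.H i ^ 4) := p3 ▸ by positivity
    have := (mul_pos_iff_of_pos_right p1).1 this
    exact Int.cast_pos.1 (by linarith : (0 : ℝ) < b)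
  obtain ⟨hi, hj, e0⟩ : (B.F i).m = 2 ∧ (B.F j).m = 2 ∧ b * b' = 1 := by
    generalize b * b' = z at e1
    generalize (B.F i).m = u at *
    generalize (B.F j).m = v at *
    interval_cases u <;> interval_cases v <;> omega
  have e3 : b = 1 := Int.eq_one_of_mul_eq_one_right e2.le e0
  obtain ⟨p7, p8⟩ := p4 e3 hi hj
  obtain ⟨q7, q8⟩ := q4 (by rwa [e3, one_mul] at e0) hj hi
  have cx : cX T V = (4 : ℝ) • B.H i + (4 : ℝ) • B.H j := by
    rw [K7.cX_eq h, hi, hj]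
    norm_num
  obtain ⟨p5, p6⟩ := p8 ⟨(Bd.inv (Bd.can 7 V.X)).mul (pull π' (Bd.can 4 Y'.X)),
    lb_mul (lb_inv (lb_can V)) (s'.hol.lb (lb_can Y')), by
      rw [hT.c1.mul V _ _ (lb_inv (lb_can V)) (s'.hol.lb (lb_can Y')), c1_acan hT, cx,
        hT.c1.pull s'.hol _ (lb_can Y'), q7, map_smul, ← q2]
      module⟩
  obtain ⟨q5, q6⟩ := q8 ⟨(Bd.inv (Bd.can 7 V.X)).mul (pull π (Bd.can 4 Y.X)),
    lb_mul (lb_inv (lb_can V)) (s.hol.lb (lb_can Y)), by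
      rw [hT.c1.mul V _ _ (lb_inv (lb_can V)) (s.hol.lb (lb_can Y)), c1_acan hT, cx,
        hT.c1.pull s.hol _ (lb_can Y), p7, map_smul, ← p2]
      module⟩
  refine h7 T s s' w w' ⟨h.th, hc, q2 ▸ p5, p2 ▸ q5, ?_, fun a c ha hc => ?_, ?_⟩
  · rw [← neg_inj, ← hT.ch.tan, show T.ps V _ 1 = _ from cx, ← p2, ← q2]
    module
  · rw [← p2, ← q2]
    refine B.kc _ ?_ fun k => ?_
    · rw [CT.Dg, map_add, map_smul, map_smul, hT.po.deg (B.nn i), hT.po.deg (B.nn j)]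
    · rw [map_add, map_smul, map_smul, B.dual, B.dual]
      rcases h.all k with rfl | rfl <;> simpa [h.ne, h.ne.symm]
  · rw [hj, e3] at p3
    rw [p6, q6]
    push_cast at p3
    linarith

end Vale.Agent.P280X.G7
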