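import Vale.Agent.P280X.G7.Defs2
import Vale.Agent.P280Z.Pr.Adjf
import Vale.Agent.P280Z.Pr.Grr4
import Vale.Agent.P280Z.Pr.Neg

/-!
# P280X, block G7: row V3X
-/

open scoped Manifold ContDiff Topology Matrix
open Set Filter
open Vale.Agent.P272.K Vale.Agent.P285.H281.FD Vale.Agent.P281Z Vale.Agent.P280Z
open Vale.Agent.P277 (Bd.inv)
open Vale.Agent.P277.HD (pull)
open Vale.Agent.P280Z.Gm (Fa)
open Vale.Agent.P280Z.Ld (h0 Γ)
open Vale.Agent.P280Z.Rh Vale.Agent.P280Z.Pr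

noncomputable section

namespace Vale.Agent.P280X.G7

theorem h0_neg {T : CT} (hT : T.OK) {Z : Mf 3} (hc : ConnectedSpace Z.X) {M : Bd Z.X}
    (hM : IsLB 3 M) {x : T.H Z} (hx : T.Kc Z x) (e : T.c1 Z M = -x) : h0 3 M = 0 := by
  have hb : Γ 3 M = ⊥ := by
    refine (Submodule.eq_bot_iff _).2 fun s hs => funext fun a => funext fun z => ?_
    by_contra h0
    have ha : z ∈ M.U a := by
      by_contra k
      exact h0 (hs.2 a z k)
    have k := (hT.eff Z _ _ 2 (fun _ => x) rfl hM hs.1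
      (Jac.dense_nz hM hs.1 (a := a) (x := z) ha h0) fun _ => kc_nn hT hx).1
    have v := Ma.kc_vol hT hx z
    rw [Finset.prod_const, Finset.card_fin, e, neg_mul, ← pow_succ', map_neg] at k
    linarith
  rw [h0, hb, finrank_bot]

/-- **row V3X** -/
theorem v3x_of (hA : ADJF) : V3X := by
  intro T hT n y V Y π h x w M a b c hd hF hY hc dw e1 hM e2 k1
  obtain ⟨p⟩ : Nonempty Y.X := inferInstance
  obtain ⟨⟨Z, i, hi⟩, k⟩ := Gm.fibi T hT.ok π p hd h
  have v := k Z i hi _ _ k1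
  rw [map_pow] at v
  have w0 : T.pull hi.hol (T.pull h.hol w) = 0 := by
    rw [← hT.ok.rg.pull_comp hi.hol h.hol (holM_const p) fun z => (hi.fib z).symm]
    exact Ma.pull_const hT.ok p dw
  have cZ : T.ps Z (VB.tan 3 Z.X) 1 = (4 : ℝ) • T.pull hi.hol x := by
    rw [(hA T hT.ok h hi hd 0).1, e1, map_add, map_smul, map_smul, w0, smul_zero, add_zero]
  have kZ : T.Kc Z (cX T Z) := by
    rw [cX, (hA T hT.ok h hi hd 0).1, hT.ok.ch.tan]
    exact Ma.kc_pull hT.ok hi.hol (fun z v hv => hi.imm z _ _ (at_ch _) (at_ch _)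
      (hv.trans (map_zero _).symm)) hF
  have kx : ∀ s : ℝ, 0 < s → T.Kc Z (s • T.pull hi.hol x) := fun s hs => by
    have := hT.ok.po.smul (s / 4) (by positivity) kZ
    rwa [cX, cZ, smul_smul, div_mul_cancel₀ _ (by norm_num)] at this
  have hZ : Fano 3 Z.X := (fano_iff hT.ok Z).2 ⟨hi.conn.2 (hc p), kZ⟩
  have r := (Gm.rt T hT.ok hT.hrr).1 Z hZ.1 (fa_of hT.ok hZ)
  have lM := hi.hol.lb hM
  have cM : T.c1 Z (pull i M) = -T.pull hi.hol x := by
    rw [hT.ok.c1.pull hi.hol _ hM, e2, map_add, map_neg, map_smul, w0, smul_zero, add_zero]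
  have r1 := hT.hrr Z _ lM (by
    have := kx 3 (by norm_num)
    rw [Ld.Ap, cM, sub_eq_add_neg, ← hT.ok.ch.tan, cZ]
    exact (congrArg (T.Kc Z) (by module)).mp this)
  rw [h0_neg hT.ok hZ.1 lM (by simpa using kx 1 one_pos) cM, cM] at r1
  have f0 : (0 : T.H Z) + (1 / 2 : ℝ) • T.ps Z (VB.tan 3 Z.X) 1 = (2 : ℝ) • T.pull hi.hol x := by
    rw [cZ]
    module
  have f1 : -T.pull hi.hol x + (1 / 2 : ℝ) • T.ps Z (VB.tan 3 Z.X) 1 =
      (1 : ℝ) • T.pull hi.hol x := by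
    rw [cZ]
    module
  rw [CT.RR, Hr.coeff_td _ _ (by norm_num), f0, Grr4.three] at r
  rw [CT.RR, Hr.coeff_td _ _ (by norm_num), f1, Grr4.three] at r1
  simp only [map_add, map_smul, smul_eq_mul, v, Nat.cast_zero] at r r1
  linarith

end Vale.Agent.P280X.G7
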